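import Crest.Agent.X261.Bog.Loc

/-!
Row 261, BOG (helper63): the saturation of a line field of holomorphic `p`-forms.

* `tq_tq`, `hm_tq`, `cop_tq` : transport of coefficients between charts
* `twist`                    : the line bundle of a family of coprime parallel local forms
* `exists_sat`               : `Nonempty (Sat F)` on a compact manifold
-/

set_option autoImplicit false
set_option linter.unusedSectionVars false

open Set Filter Topology
open scoped Matrix

noncomputable section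

namespace Crest.Agent.X261.Bog

open Crest.Agent.R275.Geo Crest.Agent.R275.Core144 Crest.Agent.R273.Fock_243
open Crest.Agent.R273.Map_835 Crest.Agent.R273.PB_835 Crest.Agent.R275.GC293
open Crest.Agent.R281.Kd_22

variable {n : ℕ} {M : Type} [TopologicalSpace M] {A A' A'' : Atl n M} {x : M}

/-! ### transport of coefficients -/

theorem tp_eq (i j : A.ι) (x : M) (u : FI n → ℂ) : tp A i j x u = tq A A i j x u := rfl

theorem tq_tq (h : HolMap A A' id) (h' : HolMap A' A'' id) {i : A.ι} {j : A'.ι} {k : A''.ι}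
    (hi : x ∈ (A.e i).source) (hj : x ∈ (A'.e j).source) (hk : x ∈ (A''.e k).source)
    (u : FI n → ℂ) : tq A A' i j x (tq A' A'' j k x u) = tq A A'' i k x u := by
  have h1 := Jp_comp h' h hi hj hk
  unfold tq
  rw [Matrix.mulVec_mulVec, ← Gam_mul, ← Matrix.transpose_mul]
  exact congrArg (fun B => Gam Bᵀ *ᵥ u) h1

theorem tp_self {i : A.ι} (hi : x ∈ (A.e i).source) (u : FI n → ℂ) : tp A i i x u = u := by
  unfold tp
  rw [J_self i hi, Matrix.transpose_one, Gam_one, Matrix.one_mulVec]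

theorem tp_tp {i j k : A.ι} (hi : x ∈ (A.e i).source) (hj : x ∈ (A.e j).source)
    (hk : x ∈ (A.e k).source) (u : FI n → ℂ) : tp A i j x (tp A j k x u) = tp A i k x u :=
  tq_tq (holMap_id A) (holMap_id A) hi hj hk u

theorem tq_inv (h : HolMap A A' id) (h' : HolMap A' A id) {i : A.ι} {j : A'.ι}
    (hi : x ∈ (A.e i).source) (hj : x ∈ (A'.e j).source) (u : FI n → ℂ) :
    tq A A' i j x (tq A' A j i x u) = u := by
  rw [tq_tq h h' hi hj hi, ← tp_eq, tp_self hi]

theorem tq_smul (i : A.ι) (j : A'.ι) (x : M) (c : ℂ) (u : FI n → ℂ) :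
    tq A A' i j x (c • u) = c • tq A A' i j x u := Matrix.mulVec_smul _ _ _

theorem tp_smul (i j : A.ι) (x : M) (c : ℂ) (u : FI n → ℂ) :
    tp A i j x (c • u) = c • tp A i j x u := Matrix.mulVec_smul _ _ _

theorem tq_zero (i : A.ι) (j : A'.ι) (x : M) : tq A A' i j x 0 = 0 := Matrix.mulVec_zero _

theorem tq_ne (h : HolMap A A' id) (h' : HolMap A' A id) {i : A.ι} {j : A'.ι}
    (hi : x ∈ (A.e i).source) (hj : x ∈ (A'.e j).source) {u : FI n → ℂ} (hu : u ≠ 0) :
    tq A A' i j x u ≠ 0 := by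
  intro h0
  apply hu
  rw [← tq_inv h' h hj hi u, h0, tq_zero]

theorem tp_ne {i j : A.ι} (hi : x ∈ (A.e i).source) (hj : x ∈ (A.e j).source) {u : FI n → ℂ}
    (hu : u ≠ 0) : tp A i j x u ≠ 0 := tq_ne (holMap_id A) (holMap_id A) hi hj hu

theorem Par.tq {u v : FI n → ℂ} (h : Par u v) (i : A.ι) (j : A'.ι) (x : M) :
    Par (tq A A' i j x u) (tq A A' i j x v) := h.mulVec _

theorem deg_Gam {p : ℕ} (B : Matrix (Fin n) (Fin n) ℂ) {u : FI n → ℂ}
    (hu : ∀ S, u S ≠ 0 → S.card = p) (S : FI n) (h : (Gam B *ᵥ u) S ≠ 0) : S.card = p := by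
  have h' : ∑ T, Gam B S T * u T ≠ 0 := h
  obtain ⟨T, -, hT⟩ := Finset.exists_ne_zero_of_sum_ne_zero h'
  by_contra hS
  refine left_ne_zero_of_mul hT (Gam_of_ne B ?_)
  rw [hu T (right_ne_zero_of_mul hT)]
  exact hS

theorem hm_det {k : ℕ} {B : M → Matrix (Fin k) (Fin k) ℂ} (h : ∀ a b, Hm A (fun y => B y a b) x) :
    Hm A (fun y => (B y).det) x := by
  simp only [Matrix.det_apply, Units.smul_def, zsmul_eq_mul]
  exact hm_sum _ fun σ _ => (Hm.const _ x).mul (hm_prod _ fun b _ => h (σ b) b)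

theorem hm_Gam {B : M → Matrix (Fin n) (Fin n) ℂ} (h : ∀ a b, Hm A (fun y => B y a b) x)
    (S T : FI n) : Hm A (fun y => Gam (B y) S T) x := by
  by_cases hST : S.card = T.card
  · simp only [fun y => Gam_eq (B y) rfl hST.symm]
    exact hm_det fun a b => h _ _
  · simp only [fun y => Gam_of_ne (B y) hST]
    exact Hm.const 0 x

theorem hm_GamJ (h : HolMap A A' id) {i : A.ι} {j : A'.ι} (hi : x ∈ (A.e i).source)
    (hj : x ∈ (A'.e j).source) (S T : FI n) : Hm A (fun y => Gam (Jp A A' id i j y)ᵀ S T) x :=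
  hm_Gam (fun a b => hm_of_holAt (h.holAt_Jp i j b a) (A'.e j).open_source hi hj) S T

theorem hm_tq (h : HolMap A A' id) {i : A.ι} {j : A'.ι} (hi : x ∈ (A.e i).source)
    (hj : x ∈ (A'.e j).source) {u : M → FI n → ℂ} (hu : ∀ S, Hm A (fun y => u y S) x)
    (S : FI n) : Hm A (fun y => tq A A' i j y (u y) S) x :=
  hm_sum Finset.univ fun T _ => (hm_GamJ h hi hj S T).mul (hu T)

theorem hm_tp {i j : A.ι} (hi : x ∈ (A.e i).source) (hj : x ∈ (A.e j).source) {u : M → FI n → ℂ}
    (hu : ∀ S, Hm A (fun y => u y S) x) (S : FI n) : Hm A (fun y => tp A i j y (u y) S) x :=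
  hm_tq (holMap_id A) hi hj hu S

/-- coprimality does not depend on the chart -/
theorem cop_tq (h : HolMap A A' id) (h' : HolMap A' A id) {i : A.ι} {j : A'.ι}
    (hi : x ∈ (A.e i).source) (hj : x ∈ (A'.e j).source) {u : M → FI n → ℂ}
    (hu : Cop A' (fun S y => u y S) x) : Cop A (fun S y => tq A A' i j y (u y) S) x := by
  refine cop_change h' (cop_of_comb hu (fun S T y => Gam (Jp A' A id j i y)ᵀ S T)
    (fun S T => hm_GamJ h' hj hi S T) fun S => ?_)
  filter_upwards [(A.e i).open_source.mem_nhds hi, (A'.e j).open_source.mem_nhds hj] with y h1 h2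
  exact (congrFun (tq_inv h' h h2 h1 (u y)) S).symm

theorem not_flat_tq (h : HolMap A A' id) (h' : HolMap A' A id) {i : A.ι} {j : A'.ι}
    (hi : x ∈ (A.e i).source) (hj : x ∈ (A'.e j).source) {u : M → FI n → ℂ}
    (hu : ¬ ∀ᶠ y in 𝓝 x, u y = 0) : ¬ ∀ᶠ y in 𝓝 x, tq A A' i j y (u y) = 0 := by
  intro hcon
  apply hu
  filter_upwards [hcon, (A.e i).open_source.mem_nhds hi, (A'.e j).open_source.mem_nhds hj]
    with y h0 h1 h2
  by_contra h3
  exact tq_ne h h' h1 h2 h3 h0

theorem not_flat_of_cop {κ : Type*} {u : M → κ → ℂ} (hu : Cop A (fun S y => u y S) x) :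
    ¬ ∀ᶠ y in 𝓝 x, u y = 0 := fun h =>
  cop_not_flat hu fun S => h.mono fun y hy => by rw [hy]; rfl

/-! ### the line bundle of coprime parallel local forms -/

section Twist

variable (e : A.ι → M → FI n → ℂ) (he : ∀ i, ∀ x ∈ (A.e i).source, ∀ S, Hm A (fun y => e i y S) x)
  (hc : ∀ i, ∀ x ∈ (A.e i).source, Cop A (fun S y => e i y S) x)
  (hp : ∀ i j, ∀ x ∈ (A.e i).source ∩ (A.e j).source, Par (tp A i j x (e j x)) (e i x))

open Classical in
/-- transition functions -/
def twG (e : A.ι → M → FI n → ℂ) (i j : A.ι) (x : M) : ℂ :=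
  if x ∈ (A.e i).source ∩ (A.e j).source then rt A (fun y => tp A i j y (e j y)) (e i) x else 1

include he hc in
theorem twG_ev {i j : A.ι} (hx : x ∈ (A.e i).source ∩ (A.e j).source) {c : M → ℂ} (h1 : Hm A c x)
    (h2 : ∀ᶠ y in 𝓝 x, tp A i j y (e j y) = c y • e i y) : twG e i j =ᶠ[𝓝 x] c := by
  filter_upwards [rt_ev (he i x hx.1) (not_flat_of_cop (hc i x hx.1)) h1 h2,
    ((A.e i).open_source.inter (A.e j).open_source).mem_nhds hx] with y h3 h4
  rw [twG, if_pos h4, h3]

include he hc hp in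
theorem twG_spec {i j : A.ι} (hx : x ∈ (A.e i).source ∩ (A.e j).source) :
    Hm A (twG e i j) x ∧ ∀ᶠ y in 𝓝 x, tp A i j y (e j y) = twG e i j y • e i y := by
  obtain ⟨c, h1, h2⟩ := div_cop (h := fun y => tp A i j y (e j y)) (he i x hx.1)
    (hm_tp hx.1 hx.2 (he j x hx.2)) (hc i x hx.1) (by
      filter_upwards [((A.e i).open_source.inter (A.e j).open_source).mem_nhds hx] with y hy
      exact hp i j y hy)
  have h3 := twG_ev e he hc hx h1 h2
  refine ⟨h1.congr h3.symm, ?_⟩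
  filter_upwards [h2, h3] with y h4 h5
  rw [h4, h5]

/-- the line bundle generated by coprime parallel local forms -/
def twist : LB A where
  g := twG e
  hol i j := holAt_of_hm fun x hx hj => (twG_spec e he hc hp ⟨hx, hj⟩).1
  off i j x hx := if_neg hx
  self i x := by
    by_cases hx : x ∈ (A.e i).source
    · refine (twG_ev e he hc ⟨hx, hx⟩ (Hm.const 1 x) ?_).self_of_nhds
      filter_upwards [(A.e i).open_source.mem_nhds hx] with y hy
      rw [tp_self hy, one_smul]
    · exact if_neg fun h => hx h.1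
  mul i j k x hx := by
    have hij : x ∈ (A.e i).source ∩ (A.e j).source := hx.1
    have hjk : x ∈ (A.e j).source ∩ (A.e k).source := ⟨hx.1.2, hx.2⟩
    have hik : x ∈ (A.e i).source ∩ (A.e k).source := ⟨hx.1.1, hx.2⟩
    obtain ⟨a1, a2⟩ := twG_spec e he hc hp hij
    obtain ⟨b1, b2⟩ := twG_spec e he hc hp hjk
    refine (twG_ev e he hc hik (a1.mul b1) ?_).self_of_nhds.symm
    filter_upwards [a2, b2, (A.e i).open_source.mem_nhds hij.1, (A.e j).open_source.mem_nhds hij.2,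
      (A.e k).open_source.mem_nhds hik.2] with y h1 h2 h3 h4 h5
    rw [← tp_tp h3 h4 h5, h2, tp_smul, h1, smul_smul, mul_comm]

theorem twist_eq {i j : A.ι} (hx : x ∈ (A.e i).source ∩ (A.e j).source) :
    tp A i j x (e j x) = (twist e he hc hp).g i j x • e i x :=
  (twG_spec e he hc hp hx).2.self_of_nhds

end Twist

/-! ### the saturation -/

theorem exists_sat [CompactSpace M] [T2Space M] {p : ℕ} (F : LF A p) : Nonempty (Sat F) := by
  classical
  have key : ∀ x : M, ∃ (a : F.κ) (d : M → ℂ) (u : M → FI n → ℂ) (O : Set M), IsOpen O ∧ x ∈ O ∧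
      ∀ y ∈ O, y ∈ F.U a ∧ Hm A d y ∧ (∀ j, Hm A (fun w => u w j) y) ∧ F.τ a y = d y • u y ∧
        (¬ ∀ᶠ w in 𝓝 y, d w = 0) ∧ Cop A (fun j w => u w j) y := by
    intro x
    obtain ⟨a, ha⟩ := F.cov x
    obtain ⟨d, u, h⟩ := exists_loc (F.hm a x ha) (F.nf a x ha)
    obtain ⟨O, hO, hOo, hxO⟩ := eventually_nhds_iff.1 (h.and ((F.op a).mem_nhds ha))
    exact ⟨a, d, u, O, hOo, hxO, fun y hy => ⟨(hO y hy).2, (hO y hy).1⟩⟩
  choose ix d u O hOo hxO hO using key
  obtain ⟨A', hfin, hgood, hpart, hsub, -, hl, hl'⟩ :=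
    Crest.Agent.R273.Fam_835.exists_refine A O hOo (fun x => ⟨x, hxO x⟩)
  choose r hr using hsub
  have hid : HolMap A' A id := hl.toHolMap
  have hid' : HolMap A A' id := hl'.toHolMap
  have hU : ∀ i, ∀ x ∈ (A'.e i).source, x ∈ F.U (ix (r i)) := fun i x hx => (hO _ x (hr i hx)).1
  have hS : ∀ i, ∀ x ∈ (A'.e i).source, x ∈ (A.e (F.ch (ix (r i)))).source :=
    fun i x hx => F.sub _ (hU i x hx)
  let e : A'.ι → M → FI n → ℂ := fun i x =>
    if x ∈ (A'.e i).source then tq A' A i (F.ch (ix (r i))) x (u (r i) x) else 0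
  have he0 : ∀ i, ∀ x ∈ (A'.e i).source, e i x = tq A' A i (F.ch (ix (r i))) x (u (r i) x) :=
    fun i x hx => if_pos hx
  have hev : ∀ i, ∀ x ∈ (A'.e i).source, ∀ S,
      (fun y => tq A' A i (F.ch (ix (r i))) y (u (r i) y) S) =ᶠ[𝓝 x] fun y => e i y S := by
    intro i x hx S
    filter_upwards [(A'.e i).open_source.mem_nhds hx] with y hy
    rw [he0 i y hy]
  have he : ∀ i, ∀ x ∈ (A'.e i).source, ∀ S, Hm A' (fun y => e i y S) x := fun i x hx S =>
    (hm_tq hid hx (hS i x hx) (fun T => hm_change hid ((hO _ x (hr i hx)).2.2.1 T)) S).congr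
      (hev i x hx S)
  have hc : ∀ i, ∀ x ∈ (A'.e i).source, Cop A' (fun S y => e i y S) x := fun i x hx =>
    cop_congr (cop_tq hid hid' hx (hS i x hx) (hO _ x (hr i hx)).2.2.2.2.2) (hev i x hx)
  -- `τ a` is parallel to `e i`
  have hpar : ∀ i a, ∀ x ∈ (A'.e i).source ∩ F.U a, ∀ᶠ y in 𝓝 x,
      Par (tq A' A i (F.ch a) y (F.τ a y)) (e i y) := by
    intro i a x hx
    refine par_cancel (A := A') (d := d (r i))
      (hm_tq hid hx.1 (F.sub a hx.2) fun T => hm_change hid (F.hm a x hx.2 T)) (he i x hx.1)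
      (hm_change hid (hO _ x (hr i hx.1)).2.1) (hO _ x (hr i hx.1)).2.2.2.2.1 ?_
    filter_upwards [((A'.e i).open_source.inter (F.op a)).mem_nhds hx] with y hy
    have h1 := ((F.par (ix (r i)) a y ⟨hU i y hy.1, hy.2⟩).symm).tq (A := A') i (F.ch (ix (r i))) y
    rw [tp_eq, tq_tq hid (holMap_id A) hy.1 (hS i y hy.1) (F.sub a hy.2),
      (hO _ y (hr i hy.1)).2.2.2.1, tq_smul, ← he0 i y hy.1] at h1
    exact h1
  have hdiv : ∀ i a, ∀ x ∈ (A'.e i).source ∩ F.U a, ∃ c : M → ℂ, Hm A' c x ∧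
      ∀ᶠ y in 𝓝 x, tq A' A i (F.ch a) y (F.τ a y) = c y • e i y := fun i a x hx =>
    div_cop (he i x hx.1)
      (hm_tq hid hx.1 (F.sub a hx.2) fun T => hm_change hid (F.hm a x hx.2 T)) (hc i x hx.1)
      (hpar i a x hx)
  let c : A'.ι → F.κ → M → ℂ := fun i a => rt A' (fun y => tq A' A i (F.ch a) y (F.τ a y)) (e i)
  have hcs : ∀ i a, ∀ x ∈ (A'.e i).source ∩ F.U a, Hm A' (c i a) x ∧
      tq A' A i (F.ch a) x (F.τ a x) = c i a x • e i x := by
    intro i a x hx
    obtain ⟨c', h1, h2⟩ := hdiv i a x hx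
    have h3 : c i a =ᶠ[𝓝 x] c' := rt_ev (he i x hx.1) (not_flat_of_cop (hc i x hx.1)) h1 h2
    exact ⟨h1.congr h3.symm, by rw [h3.self_of_nhds]; exact h2.self_of_nhds⟩
  -- the generators are parallel
  have hp : ∀ i j, ∀ x ∈ (A'.e i).source ∩ (A'.e j).source, Par (tp A' i j x (e j x)) (e i x) := by
    intro i j x hx
    refine (par_cancel (A := A') (d := d (r j)) (he i x hx.1) (hm_tp hx.1 hx.2 (he j x hx.2))
      (hm_change hid (hO _ x (hr j hx.2)).2.1) (hO _ x (hr j hx.2)).2.2.2.2.1 ?_).self_of_nhds.symm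
    filter_upwards [((A'.e i).open_source.inter (A'.e j).open_source).mem_nhds hx] with y hy
    have h1 := (hpar i (ix (r j)) y ⟨hy.1, hU j y hy.2⟩).self_of_nhds
    rw [(hO _ y (hr j hy.2)).2.2.2.1, tq_smul,
      ← tq_tq (holMap_id A') hid hy.1 hy.2 (hS j y hy.2), ← he0 j y hy.2] at h1
    exact h1.symm
  refine ⟨{
    A' := A'
    fin := hfin
    good := hgood
    part := hpart
    ref := ⟨fun i => F.ch (ix (r i)), hS⟩
    bih := hl
    bih' := hl'
    L := twist e he hc hp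
    e := e
    hol := fun i S => holAt_of_hm fun x hx _ => he i x hx S
    off := fun i x hx => if_neg hx
    deg := fun i x S hS0 => ?_
    tr := fun i j x hx => ?_
    cop := hc
    c := c
    c_hm := fun i a x hx => (hcs i a x hx).1
    c_eq := fun i a x hx => (hcs i a x hx).2 }⟩
  · by_cases hx : x ∈ (A'.e i).source
    · rw [he0 i x hx] at hS0
      refine deg_Gam _ (fun T hT => ?_) S hS0
      obtain ⟨h1, h2, h3, -, h5, -⟩ := hO _ x (hr i hx)
      by_contra hTp
      have h6 : ∀ᶠ y in 𝓝 x, d (r i) y * u (r i) y T = 0 := by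
        filter_upwards [(A'.e i).open_source.mem_nhds hx] with y hy
        by_contra h7
        refine hTp (F.deg _ y (hU i y hy) T ?_)
        rw [(hO _ y (hr i hy)).2.2.2.1]
        exact h7
      rcases mul_flat h2 (h3 T) h6 with h7 | h7
      · exact h5 h7
      · exact hT h7.self_of_nhds
    · exact absurd (by simp only [e, if_neg hx, Pi.zero_apply]) hS0
  · rw [twist_eq e he hc hp hx, smul_smul, inv_mul_cancel₀ (LB.ne_zero _ i j x), one_smul]

end Crest.Agent.X261.Bog
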