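import Crest.Agent.R281.Kd3_22
import Crest.Agent.R273.SteinD_794
import Crest.Agent.R273.Fock_243

/-!
Row 261, BOG (helper63), definitions: line fields of holomorphic `p`-forms and their sections,
without line bundles.

* `Par u v`       : parallel vectors
* `tp A i j x u`  : coefficients in the chart `i` of the form with coefficients `u` in the chart `j`
* `LF A p`        : local holomorphic `p`-forms `τ a` on an open cover, nowhere flat, parallel
* `F.Dom W`       : `W a` open and dense in `U a`, `τ a ≠ 0` on `W a`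
* `F.Ext W m g`   : `g a · (τ a)^m` extends holomorphically from `W a` to `U a`
* `F.Tr W m g g'` : `g a · (τ a)^m = g' b · (τ b)^m` on `W a ∩ W b`
* `NoBog A`       : no Bogomolov sheaf, line bundle free form
* `Sat F`         : the saturation (refined atlas, line bundle, coprime generator)
-/

set_option autoImplicit false
set_option linter.unusedSectionVars false

open Set Filter Topology
open scoped Matrix

noncomputable section

namespace Crest.Agent.X261.Bog

open Crest.Agent.R275.Geo Crest.Agent.R275.Core144 Crest.Agent.R273.Fock_243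
open Crest.Agent.R273.Map_835 Crest.Agent.R273.PB_835 Crest.Agent.R275.GC293
open Crest.Agent.R281.Kd_22 Crest.Agent.R273.SteinC_794

/-- parallel vectors -/
def Par {ι : Type*} (u v : ι → ℂ) : Prop := ∀ S T, u S * v T = u T * v S

variable {n : ℕ} {M : Type} [TopologicalSpace M]

/-- coefficients in the chart `i` of the form with coefficients `u` in the chart `j` -/
def tp (A : Atl n M) (i j : A.ι) (x : M) (u : FI n → ℂ) : FI n → ℂ := Gam (Jm A i j x)ᵀ *ᵥ u

/-- the same for two atlases -/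
def tq (A' A : Atl n M) (i : A'.ι) (j : A.ι) (x : M) (u : FI n → ℂ) : FI n → ℂ :=
  Gam (Jp A' A id i j x)ᵀ *ᵥ u

/-- a line field of holomorphic `p`-forms -/
structure LF (A : Atl n M) (p : ℕ) where
  κ : Type
  ch : κ → A.ι
  U : κ → Set M
  op : ∀ a, IsOpen (U a)
  sub : ∀ a, U a ⊆ (A.e (ch a)).source
  cov : ∀ x, ∃ a, x ∈ U a
  τ : κ → M → FI n → ℂ
  hm : ∀ a, ∀ x ∈ U a, ∀ S, Hm A (fun y => τ a y S) x
  deg : ∀ a, ∀ x ∈ U a, ∀ S, τ a x S ≠ 0 → S.card = p
  nf : ∀ a, ∀ x ∈ U a, ¬ ∀ᶠ y in 𝓝 x, τ a y = 0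
  par : ∀ a b, ∀ x ∈ U a ∩ U b, Par (τ a x) (tp A (ch a) (ch b) x (τ b x))

namespace LF

variable {A : Atl n M} {p : ℕ} (F : LF A p)

/-- domains of definition of the coefficients of sections -/
structure Dom (W : F.κ → Set M) : Prop where
  op : ∀ a, IsOpen (W a)
  sub : ∀ a, W a ⊆ F.U a
  dense : ∀ a, F.U a ⊆ closure (W a)
  ne : ∀ a, ∀ x ∈ W a, F.τ a x ≠ 0

/-- `g a · (τ a)^m` extends holomorphically over `U a` -/
def Ext (W : F.κ → Set M) (m : ℕ) (g : F.κ → M → ℂ) : Prop :=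
  ∀ a, ∀ x ∈ F.U a, ∀ S, ∃ H : M → ℂ, Hm A H x ∧
    ∀ᶠ y in 𝓝 x, y ∈ W a → H y = g a y * F.τ a y S ^ m

/-- `u · (τ a)^m = v · (τ b)^m` at `x` -/
def TrAt (m : ℕ) (a b : F.κ) (x : M) (u v : ℂ) : Prop :=
  ∀ c : ℂ, tp A (F.ch a) (F.ch b) x (F.τ b x) = c • F.τ a x → u = c ^ m * v

/-- `g` are the coefficients of a section of the `m`-th power of the saturation -/
structure Sec (W : F.κ → Set M) (m : ℕ) (g : F.κ → M → ℂ) : Prop where
  ext : F.Ext W m g
  tr : ∀ a b, ∀ x ∈ W a ∩ W b, F.TrAt m a b x (g a x) (g b x)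

end LF

/-- **no Bogomolov sheaf**: `p + 1` sections of a power of a line field of `p`-forms never have
ratios with independent differentials -/
def NoBog (A : Atl n M) : Prop :=
  ∀ p : ℕ, 1 ≤ p → ∀ (F : LF A p) (W : F.κ → Set M) (m : ℕ) (g : Fin (p + 1) → F.κ → M → ℂ),
    F.Dom W → (∀ k, F.Sec W m (g k)) → ∀ a, ∀ x ∈ W a, g 0 a x ≠ 0 →
      ¬ LinearIndependent ℂ fun k : Fin p =>
        df A (F.ch a) (fun y => g k.succ a y / g 0 a y) x

/-- the saturation of a line field: `e` is a holomorphic `p`-form with values in `L⁻¹` with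
coprime coefficients, and `τ a = c i a • e i` -/
structure Sat {A : Atl n M} {p : ℕ} (F : LF A p) where
  A' : Atl n M
  fin : Finite A'.ι
  good : GoodA A'
  part : Nonempty (Part A')
  ref : Ref A' A id
  bih : LBih A' A id
  bih' : LBih A A' id
  L : LB A'
  e : A'.ι → M → FI n → ℂ
  hol : ∀ i S, HolAt A' i univ (fun x => e i x S)
  off : ∀ i, ∀ x ∉ (A'.e i).source, e i x = 0
  deg : ∀ i x S, e i x S ≠ 0 → S.card = p
  tr : ∀ i j, ∀ x ∈ (A'.e i).source ∩ (A'.e j).source,
    e i x = (L.g i j x)⁻¹ • tp A' i j x (e j x)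
  cop : ∀ i, ∀ x ∈ (A'.e i).source, Cop A' (fun S y => e i y S) x
  c : A'.ι → F.κ → M → ℂ
  c_hm : ∀ i a, ∀ x ∈ (A'.e i).source ∩ F.U a, Hm A' (c i a) x
  c_eq : ∀ i a, ∀ x ∈ (A'.e i).source ∩ F.U a,
    tq A' A i (F.ch a) x (F.τ a x) = c i a x • e i x

end Crest.Agent.X261.Bog
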