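import Crest.Agent.X261.Bog.Nrm
import Crest.Agent.R273.EqvA_914

/-!
Row 261, BOG (helper63): `NoBog` on covers.

* `LF.Sec.not_flat` : identity theorem for sections of a line field
* `NoBog.cov`       : sections `g β^m` on `D.cov G`, invariant under a subgroup of finite index
* `NoBog.forms`     : invariant parallel holomorphic forms
-/

set_option autoImplicit false
set_option linter.unusedSectionVars false

open Set Filter Topology
open scoped Matrix

noncomputable section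

namespace Crest.Agent.X261.Bog

open Crest.Agent.R275.Geo Crest.Agent.R275.Core144 Crest.Agent.R273.Fock_243
open Crest.Agent.R273.Map_835 Crest.Agent.R273.PB_835 Crest.Agent.R275.GC293
open Crest.Agent.R281.Kd_22 Crest.Agent.R273.SteinC_794 Crest.Agent.R273.SteinD_794
open Crest.Agent.R273.UCov_914 Crest.Agent.R273.HolF_578

section Ident

variable {n : ℕ} {M : Type} [TopologicalSpace M] {A : Atl n M} {p m : ℕ} {F : LF A p}
  {W : F.κ → Set M} {g : F.κ → M → ℂ} {x : M}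

theorem LF.Sec.flat_chg (hg : F.Sec W m g) (hW : F.Dom W) {a b : F.κ} (ha : x ∈ F.U a)
    (h : ∀ᶠ y in 𝓝 x, y ∈ W a → g a y = 0) : ∀ᶠ y in 𝓝 x, y ∈ W b → g b y = 0 := by
  filter_upwards [eventually_eventually_nhds.2 h, (F.op a).mem_nhds ha] with y h1 h2 hy
  have h3 := ev_eq_of_dense (g := fun _ => 0) (hm_ev_cont (hg.ext.hm hW hy))
    (Eventually.of_forall fun _ => continuousAt_const) (hW.ev_closure₂ ⟨hW.sub b hy, h2⟩) (by
      filter_upwards [h1] with w h4 hw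
      obtain ⟨l, hl⟩ := (F.par b a w ⟨hW.sub b hw.1, hW.sub a hw.2⟩).symm.exists_smul
        (hW.ne b w hw.1)
      rw [hg.tr b a w hw l hl, h4 hw.2, mul_zero])
  exact h3.self_of_nhds

/-- identity theorem for sections of a line field -/
theorem LF.Sec.not_flat [PreconnectedSpace M] (hg : F.Sec W m g) (hW : F.Dom W)
    (h0 : ∃ a, ∃ x ∈ W a, g a x ≠ 0) {a : F.κ} (hx : x ∈ F.U a) :
    ¬ ∀ᶠ y in 𝓝 x, y ∈ W a → g a y = 0 := by
  let Z : Set M := {x | ∃ a, x ∈ F.U a ∧ ∀ᶠ y in 𝓝 x, y ∈ W a → g a y = 0}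
  have hZo : IsOpen Z := by
    rw [isOpen_iff_mem_nhds]
    rintro x ⟨b, hb, h⟩
    filter_upwards [eventually_eventually_nhds.2 h, (F.op b).mem_nhds hb] with y h1 h2
    exact ⟨b, h2, h1⟩
  have hZc : IsClosed Z := by
    rw [← isOpen_compl_iff, isOpen_iff_mem_nhds]
    intro x hx
    obtain ⟨b, hb⟩ := F.cov x
    choose H hH hHe using hg.ext b x hb
    obtain ⟨T, hT⟩ := exists_not_flat (x := x) (τ := fun y T => H T y) (by
      intro hcon
      refine hx ⟨b, hb, ?_⟩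
      filter_upwards [hcon, eventually_all.2 hHe] with y h1 h2 hy
      obtain ⟨T, hT⟩ := Function.ne_iff.1 (hW.ne b y hy)
      have h3 := congrFun h1 T
      rw [h2 T hy] at h3
      exact (mul_eq_zero.1 h3).resolve_right (pow_ne_zero m hT))
    filter_upwards [ev_not_flat (hH T) hT, (F.op b).mem_nhds hb, (hH T).ev,
      eventually_eventually_nhds.2 (hHe T)] with y h1 h2 h3 h4
    rintro ⟨a, ha, h5⟩
    refine h1 (ev_eq_of_dense (g := fun _ => 0) (hm_ev_cont h3)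
      (Eventually.of_forall fun _ => continuousAt_const) (hW.ev_closure h2) ?_)
    filter_upwards [h4, hg.flat_chg hW (b := b) ha h5] with w h6 h7 hw
    rw [h6 hw, h7 hw, zero_mul]
  intro hcon
  have h1 : Z = univ := IsClopen.eq_univ ⟨hZc, hZo⟩ ⟨x, a, hx, hcon⟩
  obtain ⟨b, y, hy, h2⟩ := h0
  obtain ⟨c, hc, h3⟩ : y ∈ Z := h1 ▸ mem_univ y
  exact h2 ((hg.flat_chg hW (b := b) hc h3).self_of_nhds hy)

theorem tOm_of_Om {β : A.ι → M → FI n → ℂ} (hβ : β ∈ Om A p) : TOm (1 : LB A) p β :=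
  ⟨hβ.1, fun i x _ S hS => by_contra fun h => hS (hβ.2.2.1 i x S h), fun i j x hx => by
    rw [LB.one_g, inv_one, one_smul]; exact hβ.2.2.2 i j x hx⟩

open Classical in
/-- pointwise ratio of two vectors -/
def ra {κ : Type*} (u v : κ → ℂ) : ℂ := if h : ∃ c : ℂ, u = c • v then h.choose else 0

theorem ra_spec {κ : Type*} {u v : κ → ℂ} (h : Par u v) (hv : v ≠ 0) : u = ra u v • v := by
  have h1 := h.exists_smul hv
  rw [ra, dif_pos h1]
  exact h1.choose_spec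

end Ident

section Cover

variable {n : ℕ} {X : Type} [TopologicalSpace X] {A : Atl n X} {G : Type} [Group G]
  (D : MonD A G) {E : Type} [MulAction G E] {i j : A.ι} {v : E} {x : X}

theorem ev_pt (hx : x ∈ (A.e i).source) {P : D.cov E → Prop} :
    (∀ᶠ e in 𝓝 (D.pt i v x), P e) ↔ ∀ᶠ y in 𝓝 x, P (D.pt i v y) := by
  constructor
  · intro h
    exact ((D.continuousOn_pt i v).continuousAt ((A.e i).open_source.mem_nhds hx)).eventually h
  · intro h
    have h1 : Tendsto D.pr (𝓝 (D.pt i v x)) (𝓝 x) := D.continuous_pr.continuousAt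
    filter_upwards [h1.eventually h, (D.isOpen_sheet i v).mem_nhds (D.pt_mem_sheet v hx)]
      with e h2 h3
    rwa [D.pt_of_mem h3] at h2

theorem hm_pt (hx : x ∈ (A.e i).source) {f : D.cov E → ℂ} :
    Hm (D.atl E) f (D.pt i v x) ↔ Hm A (fun y => f (D.pt i v y)) x :=
  ⟨fun h => Hm.of_one hx (h (i, v) (D.pt_mem_sheet v hx)),
    fun h => Hm.of_one (A := D.atl E) (i := (i, v)) (D.pt_mem_sheet v hx) (h i hx)⟩

theorem df_pt (f : D.cov E → ℂ) :
    df (D.atl E) (i, v) f (D.pt i v x) = df A i (fun y => f (D.pt i v y)) x := rfl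

variable {p m : ℕ} {β : (D.atl E).ι → D.cov E → FI n → ℂ}

/-- the form read on the sheet `v` over the chart `i` -/
def sh (β : (D.atl E).ι → D.cov E → FI n → ℂ) (i : A.ι) (v : E) (x : X) : FI n → ℂ :=
  β (i, v) (D.pt i v x)

theorem sh_tr (hβ : β ∈ Om (D.atl E) p) (hi : x ∈ (A.e i).source) (hj : x ∈ (A.e j).source) :
    sh D β i v x = tp A i j x (sh D β j (D.c i j x • v) x) := by
  unfold sh
  rw [← D.pt_eq v hi hj]
  exact hβ.2.2.2 (i, v) (j, D.c i j x • v) _ ⟨D.pt_mem_sheet v hi, hj, D.co_pt' v hi hj⟩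

theorem hm_sh (hβ : β ∈ Om (D.atl E) p) (hi : x ∈ (A.e i).source) (S : FI n) :
    Hm A (fun y => sh D β i v y S) x :=
  (hm_pt D hi).1 ((tOm_of_Om hβ).hm (i := (i, v)) (D.pt_mem_sheet v hi) S)

theorem nf_Om [PreconnectedSpace (D.cov E)] (hβ : β ∈ Om (D.atl E) p) (h0 : ∃ q e, β q e ≠ 0) :
    ∀ q, ∀ e ∈ ((D.atl E).e q).source, ¬ ∀ᶠ y in 𝓝 e, β q y = 0 := by
  intro q e he
  refine (tOm_of_Om hβ).not_flat ?_ q he
  obtain ⟨q', e', h1⟩ := h0
  exact ⟨q', e', by_contra fun h2 => h1 (hβ.2.1 q' e' h2), h1⟩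

theorem nf_sh [PreconnectedSpace (D.cov E)] (hβ : β ∈ Om (D.atl E) p) (h0 : ∃ q e, β q e ≠ 0)
    (hi : x ∈ (A.e i).source) : ¬ ∀ᶠ y in 𝓝 x, sh D β i v y = 0 := fun h =>
  nf_Om D hβ h0 (i, v) _ (D.pt_mem_sheet v hi) ((ev_pt D hi).2 h)

/-- the line field on the base of a form on the cover whose line is invariant -/
def lfCov [PreconnectedSpace (D.cov E)] (hβ : β ∈ Om (D.atl E) p) (h0 : ∃ q e, β q e ≠ 0)
    (hpar : ∀ i v w, ∀ x ∈ (A.e i).source, Par (sh D β i v x) (sh D β i w x)) (v₀ : E) :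
    LF A p where
  κ := A.ι
  ch := id
  U i := (A.e i).source
  op i := (A.e i).open_source
  sub _ := subset_rfl
  cov := A.cover
  τ i := sh D β i v₀
  hm _ _ hx S := hm_sh D hβ hx S
  deg i x _ S hS := by_contra fun h => hS (hβ.2.2.1 _ _ S h)
  nf _ _ hx := nf_sh D hβ h0 hx
  par i j x hx := by
    rw [sh_tr D hβ hx.1 hx.2]
    exact (hpar j _ _ x hx.2).mulVec _

end Cover

section Main

variable {n : ℕ} {X : Type} [TopologicalSpace X] {A : Atl n X} {G : Type} [Group G] {p m : ℕ}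

/-- **`NoBog` on a cover**: the sections `g k · β ^ m` are invariant under the subgroup `H` of finite
index -/
theorem NoBog.cov (h : NoBog A) (hp : 1 ≤ p) (D : MonD A G) [PreconnectedSpace (D.cov G)]
    (H : Subgroup G) [H.FiniteIndex] {β : (D.atl G).ι → D.cov G → FI n → ℂ}
    (hβ : β ∈ Om (D.atl G) p)
    (hpar : ∀ i v w, ∀ x ∈ (A.e i).source,
      Par (β (i, v) (D.pt i v x)) (β (i, w) (D.pt i w x)))
    {W₀ : Set X} (hWo : IsOpen W₀) (hWd : Dense W₀) (g : Fin (p + 1) → D.cov G → ℂ)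
    (hext : ∀ k q, ∀ e ∈ ((D.atl G).e q).source, ∀ S, ∃ f : D.cov G → ℂ, Hm (D.atl G) f e ∧
      ∀ᶠ y in 𝓝 e, D.pr y ∈ W₀ → β q y ≠ 0 → f y = g k y * β q y S ^ m)
    (hinv : ∀ k, ∀ s ∈ H, ∀ i v, ∀ x ∈ (A.e i).source, x ∈ W₀ → ∀ c : ℂ,
      β (i, v) (D.pt i v x) ≠ 0 → β (i, v * s) (D.pt i (v * s) x) ≠ 0 →
      β (i, v * s) (D.pt i (v * s) x) = c • β (i, v) (D.pt i v x) →
      g k (D.pt i v x) = c ^ m * g k (D.pt i (v * s) x))
    {q : (D.atl G).ι} {e : D.cov G} (he : e ∈ ((D.atl G).e q).source) (heW : D.pr e ∈ W₀)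
    (hβ0 : β q e ≠ 0) (h0 : g 0 e ≠ 0) :
    ¬ LinearIndependent ℂ fun k : Fin p => df (D.atl G) q (fun y => g k.succ y / g 0 y) e := by
  classical
  intro hli
  have hne : ∃ q e, β q e ≠ 0 := ⟨q, e, hβ0⟩
  -- the sections on the cover
  let Fc := lfOf (tOm_of_Om hβ) (nf_Om D hβ hne)
  let Wc : (D.atl G).ι → Set (D.cov G) := fun q =>
    {y | y ∈ ((D.atl G).e q).source ∧ β q y ≠ 0} ∩ D.pr ⁻¹' W₀
  have hWc : Fc.Dom Wc := Fc.dom_ne.inter (fun _ => hWo.preimage D.continuous_pr) fun _ y _ =>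
    (hWd.preimage D.isLocalHomeomorph.isOpenMap) y
  have hsc : ∀ k, Fc.Sec Wc m fun _ => g k := by
    intro k
    refine ⟨fun q e he S => ?_, fun q q' y hy c hc => ?_⟩
    · obtain ⟨f, h1, h2⟩ := hext k q e he S
      exact ⟨f, h1, h2.mono fun y h3 hy => h3 hy.2 hy.1.2⟩
    · have h1 : β q y = c • β q y := (hβ.2.2.2 q q' y ⟨hy.1.1.1, hy.2.1.1⟩).trans hc
      have h2 : (1 : ℂ) = c := smul_left_injective ℂ hy.1.1.2 ((one_smul ℂ _).trans h1)
      rw [← h2, one_pow, one_mul]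
  -- representatives of the cosets, one of them the sheet of `e`
  obtain ⟨i₀, v₀⟩ := q
  obtain ⟨x₀, hx₀, rfl⟩ : ∃ x ∈ (A.e i₀).source, e = D.pt i₀ v₀ x :=
    ⟨D.pr e, he.1, (D.pt_of_mem he).symm⟩
  let r : G ⧸ H → G := fun u => if u = (v₀ : G ⧸ H) then v₀ else u.out
  have hr : ∀ u, ((r u : G) : G ⧸ H) = u := by
    intro u
    by_cases hu : u = (v₀ : G ⧸ H)
    · simp only [r, if_pos hu]; exact hu.symm
    · simp only [r, if_neg hu]; exact QuotientGroup.out_eq' u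
  have hr0 : r (v₀ : G ⧸ H) = v₀ := if_pos rfl
  let F := lfCov D hβ hne hpar v₀
  let W : A.ι → Set X := fun i => {x | x ∈ (A.e i).source ∧ ∀ u, sh D β i (r u) x ≠ 0} ∩ W₀
  have hWo' : ∀ i, IsOpen {x | x ∈ (A.e i).source ∧ ∀ u, sh D β i (r u) x ≠ 0} := by
    intro i
    rw [isOpen_iff_mem_nhds]
    rintro x ⟨h1, h2⟩
    choose T hT using fun u => Function.ne_iff.1 (h2 u)
    filter_upwards [(A.e i).open_source.mem_nhds h1,
      eventually_all.2 fun u => (hm_sh D hβ h1 (T u)).ev_ne (hT u)] with y h3 h4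
    exact ⟨h3, fun u h5 => h4 u (by rw [h5]; rfl)⟩
  have hWd' : ∀ i, (A.e i).source ⊆
      closure {x | x ∈ (A.e i).source ∧ ∀ u, sh D β i (r u) x ≠ 0} := by
    intro i x hx
    choose T hT using fun u => exists_not_flat (nf_sh D (v := r u) hβ hne hx)
    have := Fintype.ofFinite (G ⧸ H)
    have h1 := frequently_ne (not_flat_prod (A := A) Finset.univ
      (fun u _ => hm_sh D hβ hx (T u)) fun u _ => hT u)
    rw [mem_closure_iff_frequently]
    refine (h1.and_eventually ((A.e i).open_source.mem_nhds hx)).mono fun y hy =>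
      ⟨hy.2, fun u h2 => Finset.prod_ne_zero_iff.1 hy.1 u (Finset.mem_univ u) ?_⟩
    rw [h2]; rfl
  have hW : F.Dom W :=
    { op := fun i => (hWo' i).inter hWo
      sub := fun i x hx => hx.1.1
      dense := fun i x hx => mem_closure_inter (A.e i).open_source (hWo' i) (hWd' i)
        (fun y _ => hWd y) ⟨hx, hx⟩
      ne := fun i x hx => by
        have h1 := hx.1.2 (v₀ : G ⧸ H)
        rw [hr0] at h1
        exact h1 }
  let ρ : G ⧸ H → A.ι → X → ℂ := fun u i x => ra (sh D β i (r u) x) (sh D β i v₀ x)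
  have hρ : ∀ u i, ∀ x ∈ W i, sh D β i (r u) x = ρ u i x • sh D β i v₀ x := fun u i x hx =>
    ra_spec (hpar i _ _ x hx.1.1) (hW.ne i x hx)
  have hρ0 : ∀ u i, ∀ x ∈ W i, ρ u i x ≠ 0 := fun u i x hx =>
    left_ne_zero_of_smul (hρ u i x hx ▸ hx.1.2 u)
  let γ : Fin (p + 1) → G ⧸ H → A.ι → X → ℂ := fun k u i x => g k (D.pt i (r u) x) * ρ u i x ^ m
  have hγ0 : ∀ k, ∀ x ∈ W i₀, γ k (v₀ : G ⧸ H) i₀ x = g k (D.pt i₀ v₀ x) := by
    intro k x hx
    have h1 := hρ (v₀ : G ⧸ H) i₀ x hx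
    rw [hr0] at h1
    have h2 : (1 : ℂ) = ρ (v₀ : G ⧸ H) i₀ x :=
      smul_left_injective ℂ (hW.ne i₀ x hx) ((one_smul ℂ _).trans h1)
    simp only [γ, hr0, ← h2, one_pow, mul_one]
  -- a point of `W i₀`
  have hg : ∀ k, Hm A (fun y => g k (D.pt i₀ v₀ y)) x₀ := fun k =>
    (hm_pt D hx₀).1 ((hsc k).ext.hm hWc (a := (i₀, v₀)) ⟨⟨he, hβ0⟩, heW⟩)
  have hli' := li_ev (fun k : Fin p => cont_df (hm_div (hg k.succ) (hg 0) h0) hx₀) hli
  obtain ⟨x, hx, h1, h2⟩ := ((mem_closure_iff_frequently.1 (hW.dense i₀ hx₀)).and_eventually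
    (hli'.and ((hg 0).ev_ne h0))).exists
  refine h.multi (m := m) hp F hW γ (fun k u => ?_) (fun (i : A.ι) (j : A.ι) y hy => ?_) hx
    (fun u hcon => ?_) (v₀ : G ⧸ H) (by rw [hγ0 0 x hx]; exact h2) ?_
  · intro (i : A.ι) y hy S
    obtain ⟨f, h3, h4⟩ := hext k (i, r u) _ (D.pt_mem_sheet (r u) hy) S
    refine ⟨_, (hm_pt D hy).1 h3, ?_⟩
    filter_upwards [(ev_pt D hy).1 h4] with w h5 hw
    rw [h5 hw.2 (hw.1.2 u)]
    have h6 : β (i, r u) (D.pt i (r u) w) S = ρ u i w * sh D β i v₀ w S := congrFun (hρ u i w hw) S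
    rw [h6, mul_pow, ← mul_assoc]
    rfl
  · have hi := hy.1.1.1
    have hj := hy.2.1.1
    refine ⟨MulAction.toPerm (D.c i j y), fun k u c hc => ?_⟩
    set u' : G ⧸ H := D.c i j y • u with hu'
    have hs : (r u')⁻¹ * (D.c i j y * r u) ∈ H := by
      rw [← QuotientGroup.eq, hr, hu']
      conv_lhs => rw [← hr u]
      rfl
    set s := (r u')⁻¹ * (D.c i j y * r u) with hsd
    have hs1 : r u' * s = D.c i j y * r u := by rw [hsd, mul_inv_cancel_left]
    have e1 : sh D β i (r u) y = tp A i j y (sh D β j (r u' * s) y) := by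
      rw [hs1]; exact sh_tr D hβ hi hj
    have e2 : sh D β j (r u' * s) y ≠ 0 := fun h3 => hy.1.1.2 u (by rw [e1, h3, tp_eq, tq_zero])
    obtain ⟨l, hl⟩ := (hpar j (r u' * s) (r u') y hj).exists_smul (hy.2.1.2 u')
    have e3 := hinv k s hs j (r u') y hj hy.2.2 l (hy.2.1.2 u') e2 hl
    have e4 : D.pt i (r u) y = D.pt j (r u' * s) y := by rw [hs1]; exact D.pt_eq _ hi hj
    have hc' : tp A i j y (sh D β j v₀ y) = c • sh D β i v₀ y := hc
    have hl' : sh D β j (r u' * s) y = l • sh D β j (r u') y := hl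
    have e5 : ρ u i y = l * ρ u' j y * c := by
      refine smul_left_injective ℂ (hW.ne i y hy.1) ?_
      change ρ u i y • sh D β i v₀ y = (l * ρ u' j y * c) • sh D β i v₀ y
      rw [← hρ u i y hy.1, e1, hl', hρ u' j y hy.2, smul_smul, tp_smul, hc', smul_smul]
    change g k (D.pt i (r u) y) * ρ u i y ^ m = c ^ m * (g k (D.pt j (r u') y) * ρ u' j y ^ m)
    rw [e3, e4, e5]
    ring
  · refine (hsc 0).not_flat hWc ⟨(i₀, v₀), _, ⟨⟨he, hβ0⟩, heW⟩, h0⟩ (a := (i₀, r u))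
      (D.pt_mem_sheet (r u) hx.1.1) ((ev_pt D hx.1.1).2 ?_)
    filter_upwards [hcon, (hW.op i₀).mem_nhds hx] with y h3 h4 _
    exact (mul_eq_zero.1 h3).resolve_right (pow_ne_zero m (hρ0 u i₀ y h4))
  · have h3 : (fun k : Fin p => df A i₀
        (fun y => γ k.succ (v₀ : G ⧸ H) i₀ y / γ 0 (v₀ : G ⧸ H) i₀ y) x) = fun k : Fin p =>
          df A i₀ (fun y => g k.succ (D.pt i₀ v₀ y) / g 0 (D.pt i₀ v₀ y)) x := by
      funext k
      refine df_congr hx.1.1 ?_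
      filter_upwards [(hW.op i₀).mem_nhds hx] with y hy
      rw [hγ0 _ y hy, hγ0 0 y hy]
    exact h3 ▸ h1

/-- **invariant parallel forms** -/
theorem NoBog.forms (h : NoBog A) (D : MonD A G) [PreconnectedSpace (D.cov G)]
    (H : Subgroup G) [H.FiniteIndex] (p : ℕ) (hp : 1 ≤ p)
    (τ : Fin (p + 1) → (D.atl G).ι → D.cov G → FI n → ℂ) (hτ : ∀ k, τ k ∈ Om (D.atl G) p)
    (hinv : ∀ k, ∀ s ∈ H, ∀ i v x,
      τ k (i, v * s⁻¹) (D.pt i (v * s⁻¹) x) = τ k (i, v) (D.pt i v x))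
    (hpar : ∀ k l i v w, ∀ x ∈ (A.e i).source,
      Par (τ k (i, v) (D.pt i v x)) (τ l (i, w) (D.pt i w x)))
    (c : (D.atl G).ι) (e₀ : D.cov G) (z : Fin p → D.cov G → ℂ)
    (he : e₀ ∈ ((D.atl G).e c).source) (h0 : τ 0 c e₀ ≠ 0)
    (hz : ∀ᶠ e in 𝓝 e₀, ∀ k, τ k.succ c e = z k e • τ 0 c e)
    (hli : LinearIndependent ℂ fun k => df (D.atl G) c (z k) e₀) : False := by
  let ch : D.cov G → (D.atl G).ι := fun e => ((D.atl G).cover e).choose
  have hch : ∀ e, e ∈ ((D.atl G).e (ch e)).source := fun e => ((D.atl G).cover e).choose_spec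
  let g : Fin (p + 1) → D.cov G → ℂ := fun k e => ra (τ k (ch e) e) (τ 0 (ch e) e)
  have hg : ∀ k q, ∀ e ∈ ((D.atl G).e q).source, τ 0 q e ≠ 0 → τ k q e = g k e • τ 0 q e := by
    intro k q e he h1
    have h2 : ∀ l, τ l q e = tp (D.atl G) q (ch e) e (τ l (ch e) e) := fun l =>
      (hτ l).2.2.2 q (ch e) e ⟨he, hch e⟩
    have h3 : τ 0 (ch e) e ≠ 0 := fun h4 => h1 (by rw [h2, h4, tp_eq, tq_zero])
    have h4 : Par (τ k (ch e) e) (τ 0 (ch e) e) := by
      have h5 := hpar k 0 (ch e).1 (ch e).2 (ch e).2 (D.pr e) (hch e).1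
      rwa [D.pt_of_mem (hch e)] at h5
    rw [h2 k, h2 0, ← tp_smul, ← ra_spec h4 h3]
  have hg0 : ∀ q, ∀ e ∈ ((D.atl G).e q).source, τ 0 q e ≠ 0 → g 0 e = 1 := fun q e he h1 =>
    (smul_left_injective ℂ h1 ((one_smul ℂ _).trans (hg 0 q e he h1))).symm
  refine h.cov (m := 1) hp D H (hτ 0) (hpar 0 0) isOpen_univ dense_univ g
    (fun k q e he S => ?_) (fun k s hs i v x hx _ l h1 h2 h3 => ?_) he (mem_univ _) h0
    (by rw [hg0 c e₀ he h0]; exact one_ne_zero) ?_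
  · refine ⟨fun y => τ k q y S, (tOm_of_Om (hτ k)).hm he S, ?_⟩
    filter_upwards [((D.atl G).e q).open_source.mem_nhds he] with y hy _ h1
    rw [hg k q y hy h1, pow_one]
    rfl
  · have h4 : ∀ l, τ l (i, v * s) (D.pt i (v * s) x) = τ l (i, v) (D.pt i v x) := fun l => by
      have := hinv l s⁻¹ (H.inv_mem hs) i v x
      rwa [inv_inv] at this
    have h5 : (1 : ℂ) = l := smul_left_injective ℂ h1 ((one_smul ℂ _).trans ((h4 0).symm.trans h3))
    rw [← h5, one_pow, one_mul]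
    have h6 := hg k (i, v) _ (D.pt_mem_sheet v hx) h1
    have h7 := hg k (i, v * s) _ (D.pt_mem_sheet (v * s) hx) h2
    rw [h4 k, h4 0] at h7
    exact smul_left_injective ℂ h1 (h6.symm.trans h7)
  · obtain ⟨T, hT⟩ := Function.ne_iff.1 h0
    convert hli using 2 with k
    refine df_congr he ?_
    filter_upwards [hz, ((D.atl G).e c).open_source.mem_nhds he,
      ((tOm_of_Om (hτ 0)).hm he T).ev_ne hT] with y h1 h2 h3
    have h4 : τ 0 c y ≠ 0 := fun h5 => h3 (by rw [h5]; rfl)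
    rw [hg0 c y h2 h4, div_one]
    exact smul_left_injective ℂ h4 ((hg _ c y h2 h4).symm.trans (h1 k))

end Main

end Crest.Agent.X261.Bog
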