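import Crest.Agent.X261.Bog.Sec
import Crest.Agent.X261.E0.Defs

/-!
Row 261, BOG (helper63): `NoBog` and line bundles.

* `df` calculus for germs, `li_change`, `li_wr_iff`
* `NoBog.lb`       : the line bundle form (Wronskians `E0.Wr`)
* `LBNo A`, `noBog_of_lbNo` : `NoBog` from the line bundle form on all finer atlases
-/

set_option autoImplicit false
set_option linter.unusedSectionVars false

open Set Filter Topology
open scoped Matrix

noncomputable section

namespace Crest.Agent.X261.Bog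

open Crest.Agent.R275.Geo Crest.Agent.R275.Core144 Crest.Agent.R273.Fock_243
open Crest.Agent.R273.Map_835 Crest.Agent.R273.PB_835 Crest.Agent.R275.GC293
open Crest.Agent.R281.Kd_22 Crest.Agent.R273.SteinC_794 Crest.Agent.R273.SteinD_794
open Crest.Agent.R275.OmT75 (dl dj)
open Crest.Agent.X261.E0 (Wr Cmp)

variable {n : ℕ} {M : Type} [TopologicalSpace M] {A A' : Atl n M} {x : M} {i : A.ι}
  {f g : M → ℂ}

/-! ### differentials of germs -/

theorem dl_eq_df (hf : Hm A f x) (hx : x ∈ (A.e i).source) (a : Fin n) :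
    dl A i a f x = df A i f x (EuclideanSpace.single a 1) := by
  have h1 := (hf i hx).differentiableAt
  have h3 : (EuclideanSpace.single a Complex.I : Cn n) =
      Complex.I • EuclideanSpace.single a (1 : ℂ) := by
    ext b
    by_cases hb : b = a <;> simp [hb]
  unfold dl dj df
  rw [h1.fderiv_restrictScalars ℝ, h3]
  simp only [ContinuousLinearMap.coe_restrictScalars', map_smul, smul_eq_mul]
  ring_nf
  simp
  ring

theorem df_mul' (hf : Hm A f x) (hg : Hm A g x) (hx : x ∈ (A.e i).source) :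
    df A i (fun y => f y * g y) x = f x • df A i g x + g x • df A i f x := by
  unfold df
  rw [fderiv_fun_mul (hf i hx).differentiableAt (hg i hx).differentiableAt, (A.e i).left_inv hx]

theorem df_sub' (hf : Hm A f x) (hg : Hm A g x) (hx : x ∈ (A.e i).source) :
    df A i (fun y => f y - g y) x = df A i f x - df A i g x :=
  fderiv_fun_sub (hf i hx).differentiableAt (hg i hx).differentiableAt

theorem df_const (c : ℂ) : df A i (fun _ => c) x = 0 := by
  unfold df
  simp

theorem df_div (hf : Hm A f x) (hg : Hm A g x) (hx : x ∈ (A.e i).source) (h0 : g x ≠ 0) :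
    g x • df A i f x - f x • df A i g x = g x ^ 2 • df A i (fun y => f y / g y) x := by
  have h1 : f =ᶠ[𝓝 x] fun y => f y / g y * g y := by
    filter_upwards [hg.ev_ne h0] with y hy
    rw [div_mul_cancel₀ _ hy]
  rw [df_congr hx h1, df_mul' (hm_div hf hg h0) hg hx, smul_add, smul_smul, smul_smul,
    mul_div_cancel₀ _ h0, pow_two]
  abel

theorem cont_df (hf : Hm A f x) (hx : x ∈ (A.e i).source) : ContinuousAt (df A i f) x :=
  ContinuousAt.comp (g := fderiv ℂ fun z => f ((A.e i).symm z)) (f := A.e i)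
    (hf i hx).fderiv.continuousAt ((A.e i).continuousAt hx)

theorem df_flat (hx : x ∈ (A.e i).source) (h : ∀ᶠ y in 𝓝 x, f y = 0) : df A i f x = 0 := by
  rw [df_congr (g := fun _ => 0) hx h, df_const]

theorem df_change (h : HolMap A' A id) {j : A'.ι} (hj : x ∈ (A'.e j).source)
    (hi : x ∈ (A.e i).source) (hf : Hm A f x) :
    df A' j f x = (df A i f x).comp (fderiv ℂ (rd A' A id j i) (A'.e j x)) := by
  have hmem : A'.e j x ∈ dm A' A id j i := mem_dm hj hi
  have hval : rd A' A id j i (A'.e j x) = A.e i x := by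
    simp only [Crest.Agent.R273.Map_835.rd, id, (A'.e j).left_inv hj]
  have he : (fun w => f ((A'.e j).symm w)) =ᶠ[𝓝 (A'.e j x)]
      (fun w => f ((A.e i).symm w)) ∘ rd A' A id j i := by
    filter_upwards [(h.isOpen_dm j i).mem_nhds hmem] with z hz
    have hz2 : (A'.e j).symm z ∈ (A.e i).source := hz.2
    simp only [Function.comp, Crest.Agent.R273.Map_835.rd, id, (A.e i).left_inv hz2]
  unfold df
  rw [he.fderiv_eq, fderiv_comp _ (by rw [hval]; exact (hf i hi).differentiableAt) (h.diffAt hmem),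
    hval]

/-- independence of differentials does not depend on the chart -/
theorem li_change (h : LBih A' A id) {j : A'.ι} (hj : x ∈ (A'.e j).source)
    (hi : x ∈ (A.e i).source) {ι : Type*} [Fintype ι] {z : ι → M → ℂ} (hz : ∀ k, Hm A (z k) x)
    (hli : LinearIndependent ℂ fun k => df A i (z k) x) :
    LinearIndependent ℂ fun k => df A' j (z k) x := by
  rw [Fintype.linearIndependent_iff] at hli ⊢
  intro c hc
  refine hli c ?_
  have hs : Function.Surjective (fderiv ℂ (rd A' A id j i) (A'.e j x)) :=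
    LinearMap.surjective_of_injective (f := (fderiv ℂ (rd A' A id j i) (A'.e j x)).toLinearMap)
      (h.inj (mem_dm hj hi))
  ext w
  obtain ⟨v, rfl⟩ := hs w
  have := DFunLike.congr_fun hc v
  simpa only [df_change h.toHolMap hj hi (hz _), sum_apply, smul_apply,
    ContinuousLinearMap.comp_apply, zero_apply] using this

/-- coordinates of a covector -/
def co (n : ℕ) : (Cn n →L[ℂ] ℂ) →ₗ[ℂ] (Fin n → ℂ) where
  toFun φ a := φ (EuclideanSpace.single a 1)
  map_add' _ _ := rfl
  map_smul' _ _ := rfl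

theorem co_apply (φ : Cn n →L[ℂ] ℂ) (a : Fin n) : co n φ a = φ (EuclideanSpace.single a 1) := rfl

theorem ker_co : LinearMap.ker (co n) = ⊥ := by
  rw [LinearMap.ker_eq_bot']
  intro φ h
  ext v
  rw [clm_single φ v]
  refine Finset.sum_eq_zero fun a _ => ?_
  rw [← co_apply, h, Pi.zero_apply, mul_zero]

theorem li_co_iff {ι : Type*} {φ : ι → Cn n →L[ℂ] ℂ} :
    (LinearIndependent ℂ fun k => co n (φ k)) ↔ LinearIndependent ℂ φ :=
  ⟨fun h => LinearIndependent.of_comp (co n) h, fun h => h.map' (co n) ker_co⟩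

theorem li_smul_iff {ι V : Type*} [AddCommGroup V] [Module ℂ V] {v : ι → V} {c : ℂ} (hc : c ≠ 0) :
    (LinearIndependent ℂ fun k => c • v k) ↔ LinearIndependent ℂ v :=
  (LinearEquiv.smulOfNeZero ℂ V c hc).toLinearMap.linearIndependent_iff (LinearEquiv.ker _)

theorem Wr_eq {s t : A.ι → M → ℂ} (hs : Hm A (s i) x) (ht : Hm A (t i) x)
    (hx : x ∈ (A.e i).source) :
    Wr A s t i x = co n (t i x • df A i (s i) x - s i x • df A i (t i) x) := by
  funext a
  rw [Wr, dl_eq_df hs hx, dl_eq_df ht hx]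
  rfl

theorem li_wr_iff {ι : Type*} {s : ι → A.ι → M → ℂ} {t : A.ι → M → ℂ} (hs : ∀ k, Hm A (s k i) x)
    (ht : Hm A (t i) x) (hx : x ∈ (A.e i).source) (h0 : t i x ≠ 0) :
    (LinearIndependent ℂ fun k => Wr A (s k) t i x) ↔
      LinearIndependent ℂ fun k => df A i (fun y => s k i y / t i y) x := by
  simp only [fun k => Wr_eq (hs k) ht hx, fun k => df_div (hs k) ht hx h0]
  rw [li_co_iff]
  exact li_smul_iff (pow_ne_zero 2 h0)

theorem li_ev {ι : Type*} [Finite ι] {V : Type*} [NormedAddCommGroup V] [NormedSpace ℂ V]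
    {v : ι → M → V} (hv : ∀ k, ContinuousAt (v k) x) (h : LinearIndependent ℂ fun k => v k x) :
    ∀ᶠ y in 𝓝 x, LinearIndependent ℂ fun k => v k y :=
  (continuousAt_pi.2 hv : ContinuousAt (fun y k => v k y) x).eventually h.eventually

theorem cont_Wr {s t : A.ι → M → ℂ} (hs : Hm A (s i) x) (ht : Hm A (t i) x)
    (hx : x ∈ (A.e i).source) : ContinuousAt (Wr A s t i) x := by
  have h1 : ContinuousAt (fun y => co n (t i y • df A i (s i) y - s i y • df A i (t i) y)) x :=
    (co n).continuous_of_finiteDimensional.continuousAt.comp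
      ((ht.cont.smul (cont_df hs hx)).sub (hs.cont.smul (cont_df ht hx)))
  refine h1.congr ?_
  filter_upwards [hs.ev, ht.ev, (A.e i).open_source.mem_nhds hx] with y a1 a2 a3
  rw [Wr_eq a1 a2 a3]

theorem frequently_ne (h : ¬ ∀ᶠ y in 𝓝 x, f y = 0) : ∃ᶠ y in 𝓝 x, f y ≠ 0 :=
  fun h' => h (h'.mono fun _ hy => not_not.1 hy)

/-! ### the line bundle form -/

variable {p m : ℕ} {L : LB A} {e : A.ι → M → FI n → ℂ}

theorem tOm_of (he : E0.TOm L p e) : TOm L p e :=
  ⟨he.hol, fun i x _ S hS => by_contra fun h => hS (he.deg i x S h), he.tr⟩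

theorem Sat.tOm' {F : LF A p} (S : Sat F) : E0.TOm S.L p S.e :=
  ⟨S.hol, S.off, fun i x T hT => by_contra fun h => hT (S.deg i x T h), S.tr⟩

theorem NoBog.lb' (h : NoBog A) (hp : 1 ≤ p) (he : TOm L p e)
    (h0 : ∀ i, ∀ x ∈ (A.e i).source, ¬ ∀ᶠ y in 𝓝 x, e i y = 0) {s : Fin (p + 1) → A.ι → M → ℂ}
    (hs : ∀ k, IsHS (L ^ m) univ (s k)) (hx : x ∈ (A.e i).source) :
    ¬ LinearIndependent ℂ fun k : Fin p => Wr A (s k.succ) (s 0) i x := by
  intro hli
  have hm : ∀ k, Hm A (s k i) x := fun k => hm_of_isHS (hs k) hx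
  have h1 : ¬ ∀ᶠ y in 𝓝 x, s 0 i y = 0 := by
    intro hcon
    refine hli.ne_zero ⟨0, hp⟩ ?_
    rw [Wr_eq (hm _) (hm 0) hx, df_flat hx hcon, hcon.self_of_nhds]
    simp
  obtain ⟨T, hT⟩ := exists_not_flat (h0 i x hx)
  have h2 : ¬ ∀ᶠ y in 𝓝 x, s 0 i y * e i y T = 0 := fun hcon =>
    (mul_flat (hm 0) (he.hm hx T) hcon).elim h1 hT
  obtain ⟨y, h3, h4, h5⟩ := ((frequently_ne h2).and_eventually
    ((li_ev (fun k => cont_Wr (hm _) (hm 0) hx) hli).and ((A.e i).open_source.mem_nhds hx))).exists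
  have h6 : s 0 i y ≠ 0 := left_ne_zero_of_mul h3
  have h7 : e i y ≠ 0 := fun h8 => right_ne_zero_of_mul h3 (by rw [h8]; rfl)
  refine h p hp (lfOf he h0) _ m s (lfOf he h0).dom_ne
    (fun k => sec_lfOf he h0 (lfOf he h0).dom_ne (hs k)) i y ⟨h5, h7⟩ h6 ?_
  exact (li_wr_iff (fun k => hm_of_isHS (hs _) h5) (hm_of_isHS (hs 0) h5) h5 h6).1 h4

/-- **line bundle form of `NoBog`** -/
theorem NoBog.lb [PreconnectedSpace M] (h : NoBog A) (hp : 1 ≤ p) (he : E0.TOm L p e)
    (h0 : ∃ i x, e i x ≠ 0) {s : Fin (p + 1) → A.ι → M → ℂ}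
    (hs : ∀ k, IsHS (L ^ m) univ (s k)) (hx : x ∈ (A.e i).source) :
    ¬ LinearIndependent ℂ fun k : Fin p => Wr A (s k.succ) (s 0) i x := by
  refine h.lb' hp (tOm_of he) (fun j y hy => (tOm_of he).not_flat ?_ j hy) hs hx
  obtain ⟨j, y, h1⟩ := h0
  exact ⟨j, y, by_contra fun h2 => h1 (he.off j y h2), h1⟩

/-- a nonzero maximal minor gives independence -/
theorem li_of_minor {v : Fin p → Fin n → ℂ} (r : Fin p → Fin n)
    (h : (Matrix.of fun k l : Fin p => v k (r l)).det ≠ 0) : LinearIndependent ℂ v :=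
  LinearIndependent.of_comp (LinearMap.funLeft ℂ ℂ r)
    (Matrix.linearIndependent_rows_of_det_ne_zero h)

/-! ### from line bundles on finer atlases -/

/-- the line bundle form on all compatible finite atlases -/
def LBNo (A : Atl n M) : Prop :=
  ∀ B : Atl n M, Cmp A B → Finite B.ι → Nonempty (Part B) → ∀ p : ℕ, 1 ≤ p →
    ∀ (L : LB B) (e : B.ι → M → FI n → ℂ), E0.TOm L p e → (∃ i x, e i x ≠ 0) → ∀ m : ℕ, 0 < m →
      ∀ s : Fin (p + 1) → B.ι → M → ℂ, (∀ k, IsHS (L ^ m) univ (s k)) →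
        ∀ i, ∀ x ∈ (B.e i).source,
          ¬ LinearIndependent ℂ fun k : Fin p => Wr B (s k.succ) (s 0) i x

theorem LBNo.cmp (h : LBNo A) (hB : Cmp A A') : LBNo A' := fun C hC => h C (hB.trans hC)

theorem noBog_of_lbNo [CompactSpace M] [T2Space M] [ConnectedSpace M] (h : LBNo A) : NoBog A := by
  intro p hp F W m g hW hg a x hx h0 hli
  obtain ⟨S⟩ := exists_sat F
  choose s hs hsg using fun k => S.sec hW (hg k)
  obtain ⟨i, hi⟩ := S.A'.cover x
  have hU := hW.sub a hx
  have hc := S.ce_ne ⟨hi, hU⟩ (hW.ne a x hx)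
  have hs0 : s 0 i x ≠ 0 := by
    rw [hsg 0 i a x ⟨hi, hx⟩]
    exact mul_ne_zero h0 (pow_ne_zero m hc.1)
  have hm : ∀ k, Hm S.A' (s k i) x := fun k => hm_of_isHS (hs k) hi
  have h1 : LinearIndependent ℂ fun k : Fin p =>
      df S.A' i (fun y => s k.succ i y / s 0 i y) x := by
    have h2 := li_change S.bih hi (F.sub a hU)
      (fun k => hm_div ((hg _).ext.hm hW hx) ((hg 0).ext.hm hW hx) h0) hli
    convert h2 using 2 with k
    refine df_congr hi ?_
    filter_upwards [((S.A'.e i).open_source.inter (hW.op a)).mem_nhds ⟨hi, hx⟩] with y hy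
    rw [hsg _ i a y hy, hsg 0 i a y hy,
      mul_div_mul_right _ _ (pow_ne_zero m (S.ce_ne ⟨hy.1, hW.sub a hy.2⟩ (hW.ne a y hy.2)).1)]
  rcases Nat.eq_zero_or_pos m with rfl | hm0
  · refine h1.ne_zero ⟨0, hp⟩ ?_
    simp only [pow_zero] at hs
    obtain ⟨c, hc⟩ := Crest.Agent.R273.HolF_578.isHS_one_const (hs (Fin.succ ⟨0, hp⟩))
    obtain ⟨c', hc'⟩ := Crest.Agent.R273.HolF_578.isHS_one_const (hs 0)
    rw [df_congr (g := fun _ => c / c') hi, df_const]
    filter_upwards [(S.A'.e i).open_source.mem_nhds hi] with y hy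
    rw [hc i y hy, hc' i y hy]
  · exact h S.A' (E0.cmp_of_lBih S.bih' S.bih) S.fin S.part p hp S.L S.e S.tOm' ⟨i, x, hc.2⟩ m hm0
      s hs i x hi ((li_wr_iff (fun k => hm _) (hm 0) hi hs0).2 h1)

end Crest.Agent.X261.Bog
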