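import Crest.Agent.X261.Bog.Cov
import Crest.Agent.X261.Gauss.Flat
import Crest.Agent.R281.Thn5_280

/-!
Row 261, BOG (helper63): removable singularities in the language of germs.

* `ext_bdd`, `ext_L2` : Riemann extension across `{D = 0}` (bounded / square integrable)
* `ext_of_cop`        : `s` extends as soon as the products `s · e_S ^ k` extend (`e` coprime)
* `hext_of_bdd`       : the hypothesis `hext` of `NoBog.cov` from a local bound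
-/

set_option autoImplicit false
set_option linter.unusedSectionVars false

open Set Filter Topology MeasureTheory
open scoped Matrix

noncomputable section

namespace Crest.Agent.X261.Bog

open Crest.Agent.R275.Geo Crest.Agent.R275.Core144 Crest.Agent.R273.Fock_243
open Crest.Agent.R281.Kd_22 Crest.Agent.R273.HolF_578

variable {n : ℕ} {M : Type} [TopologicalSpace M] {A : Atl n M} {x : M} {f D : M → ℂ}

theorem ext_aux {i : A.ι} (hi : x ∈ (A.e i).source) (hD : Hm A D x) (hD0 : ¬ ∀ᶠ y in 𝓝 x, D y = 0)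
    (hf : ∀ᶠ y in 𝓝 x, D y ≠ 0 → Hm A f y) {V : Set (Cn n)} (hV : V ∈ 𝓝 (A.e i x)) :
    ∃ U : Set (Cn n), IsOpen U ∧ A.e i x ∈ U ∧ U ⊆ V ∧
      AnalyticOnNhd ℂ (fun z => D ((A.e i).symm z)) U ∧
      (∀ a ∈ U, ¬ ∀ᶠ z in 𝓝 a, D ((A.e i).symm z) = 0) ∧
      DifferentiableOn ℂ (fun z => f ((A.e i).symm z)) (U ∩ {z | D ((A.e i).symm z) ≠ 0}) := by
  have h1 := (ev_iff hi).1 (hD.ev.and ((ev_not_flat hD hD0).and hf))
  obtain ⟨U, hU, hUo, hxU⟩ := eventually_nhds_iff.1 (h1.and (Filter.Eventually.and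
    ((A.e i).open_target.mem_nhds ((A.e i).map_source hi)) hV))
  refine ⟨U, hUo, hxU, fun z hz => (hU z hz).2.2, fun z hz => ?_, fun z hz hcon => ?_,
    fun z hz => ?_⟩
  · have h2 := (hU z hz).1.1 i ((A.e i).map_target (hU z hz).2.1)
    rwa [(A.e i).right_inv (hU z hz).2.1] at h2
  · refine (hU z hz).1.2.1 ((ev_iff ((A.e i).map_target (hU z hz).2.1)).2 ?_)
    rwa [(A.e i).right_inv (hU z hz).2.1]
  · have h2 := (hU z hz.1).1.2.2 hz.2 i ((A.e i).map_target (hU z hz.1).2.1)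
    rw [(A.e i).right_inv (hU z hz.1).2.1] at h2
    exact h2.differentiableAt.differentiableWithinAt

theorem ext_fin {i : A.ι} (hi : x ∈ (A.e i).source) {U : Set (Cn n)} (hU : IsOpen U)
    (hx : A.e i x ∈ U) {g : Cn n → ℂ} (hg : DifferentiableOn ℂ g U)
    (hgf : ∀ z ∈ U, D ((A.e i).symm z) ≠ 0 → g z = f ((A.e i).symm z)) :
    ∃ H : M → ℂ, Hm A H x ∧ ∀ᶠ y in 𝓝 x, D y ≠ 0 → H y = f y := by
  refine ⟨fun y => g (A.e i y), hm_chart hi
    (Crest.Agent.R266.SCV.analyticOnNhd_of_differentiableOn hU hg _ hx), ?_⟩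
  filter_upwards [(ev_iff' (P := fun z => z ∈ U) hi).1 (hU.mem_nhds hx),
    (A.e i).open_source.mem_nhds hi] with y h1 h2 h3
  have h4 := hgf _ h1
  rw [(A.e i).left_inv h2] at h4
  exact h4 h3

/-- **Riemann extension**, bounded functions -/
theorem ext_bdd (hD : Hm A D x) (hD0 : ¬ ∀ᶠ y in 𝓝 x, D y = 0)
    (hf : ∀ᶠ y in 𝓝 x, D y ≠ 0 → Hm A f y) {C : ℝ} (hb : ∀ᶠ y in 𝓝 x, D y ≠ 0 → ‖f y‖ ≤ C) :
    ∃ H : M → ℂ, Hm A H x ∧ ∀ᶠ y in 𝓝 x, D y ≠ 0 → H y = f y := by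
  obtain ⟨i, hi⟩ := A.cover x
  obtain ⟨U, h1, h2, h3, h4, h5, h6⟩ := ext_aux hi hD hD0 hf ((ev_iff hi).1 hb)
  obtain ⟨g, hg, hgf⟩ := Crest.Agent.R281.Thn_280.riemann_ext h1 h4
    (fun a ha h => h5 a ha (h.mono fun _ hz => not_not.1 hz)) h6
    fun a ha => ⟨U, h1.mem_nhds ha, C, fun z hz => h3 hz⟩
  exact ext_fin hi h1 h2 hg hgf

/-- **Riemann extension**, square integrable functions -/
theorem ext_L2 [MeasurableSpace (Cn n)] [BorelSpace (Cn n)] (μ : Measure (Cn n))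
    [μ.IsAddHaarMeasure] {i : A.ι} (hi : x ∈ (A.e i).source) (hD : Hm A D x)
    (hD0 : ¬ ∀ᶠ y in 𝓝 x, D y = 0) (hf : ∀ᶠ y in 𝓝 x, D y ≠ 0 → Hm A f y) {V : Set (Cn n)}
    (hV : V ∈ 𝓝 (A.e i x))
    (hL : ∫⁻ z in V ∩ {z | D ((A.e i).symm z) ≠ 0}, ‖f ((A.e i).symm z)‖ₑ ^ 2 ∂μ < ⊤) :
    ∃ H : M → ℂ, Hm A H x ∧ ∀ᶠ y in 𝓝 x, D y ≠ 0 → H y = f y := by
  obtain ⟨U, h1, h2, h3, h4, h5, h6⟩ := ext_aux hi hD hD0 hf hV
  obtain ⟨g, hg, hgf⟩ := Crest.Agent.X261.Gauss.riemann_L2 μ h1 h4 h5 h6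
    ((lintegral_mono_set (inter_subset_inter_left _ h3)).trans_lt hL)
  exact ext_fin hi h1 h2 hg hgf

/-- `s` extends if the products `s · e_S ^ k` with a coprime family extend -/
theorem ext_of_cop {κ : Type*} [Finite κ] {e : M → κ → ℂ} (he : ∀ S, Hm A (fun y => e y S) x)
    (hc : Cop A (fun S y => e y S) x) {V : Set M} (hV : ∀ᶠ y in 𝓝 x, y ∈ closure V) (k : ℕ)
    {s : M → ℂ} (h : ∀ S, ∃ H : M → ℂ, Hm A H x ∧ ∀ᶠ y in 𝓝 x, y ∈ V → H y = s y * e y S ^ k) :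
    ∃ H : M → ℂ, Hm A H x ∧ ∀ᶠ y in 𝓝 x, y ∈ V → e y ≠ 0 → H y = s y := by
  choose H hH hHe using h
  obtain ⟨c, h1, h2⟩ := div_cop (A := A) (x := x) (e := fun y T => e y T ^ k) (h := fun y T => H T y)
    (fun T => (he T).pow k) hH (cop_pow' he hc k) (by
      refine eventually_all.2 fun T => eventually_all.2 fun T' => ?_
      refine ev_eq_of_dense (hm_ev_cont ((hH T).mul ((he T').pow k)))
        (hm_ev_cont ((hH T').mul ((he T).pow k))) hV ?_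
      filter_upwards [hHe T, hHe T'] with y h3 h4 hy
      rw [h3 hy, h4 hy]; ring)
  refine ⟨c, h1, ?_⟩
  filter_upwards [h2, eventually_all.2 hHe] with y h3 h4 hy h5
  obtain ⟨T, hT⟩ := Function.ne_iff.1 h5
  have h7 := congrFun h3 T
  simp only [Pi.smul_apply, smul_eq_mul] at h7
  rw [h4 T hy] at h7
  exact (mul_right_cancel₀ (pow_ne_zero k hT) h7).symm

/-- `g · β_S ^ m` extends over the zeros of `β` if `|g| |β| ^ m` is locally bounded -/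
theorem hext_of_bdd {κ : Type*} [Fintype κ] {β : M → κ → ℂ} (hβ : ∀ S, Hm A (fun y => β y S) x)
    (h0 : ¬ ∀ᶠ y in 𝓝 x, β y = 0) {g : M → ℂ} (hg : ∀ᶠ y in 𝓝 x, β y ≠ 0 → Hm A g y) {m : ℕ}
    {C : ℝ} (hb : ∀ᶠ y in 𝓝 x, β y ≠ 0 → ‖g y‖ * ‖β y‖ ^ m ≤ C) (S : κ) :
    ∃ H : M → ℂ, Hm A H x ∧ ∀ᶠ y in 𝓝 x, β y ≠ 0 → H y = g y * β y S ^ m := by
  obtain ⟨T, hT⟩ := exists_not_flat h0
  have hne : ∀ y, β y T ≠ 0 → β y ≠ 0 := fun y h1 h2 => h1 (by rw [h2]; rfl)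
  obtain ⟨H, h1, h2⟩ := ext_bdd (f := fun y => g y * β y S ^ m) (C := C) (hβ T) hT
    (by filter_upwards [hg, (hβ S).ev] with y a1 a2 a3 using (a1 (hne y a3)).mul (a2.pow m)) (by
      filter_upwards [hb] with y a1 a3
      refine le_trans ?_ (a1 (hne y a3))
      rw [norm_mul, norm_pow]
      gcongr
      exact norm_le_pi_norm _ S)
  refine ⟨H, h1, ?_⟩
  filter_upwards [eventually_eventually_nhds.2 h2, h1.ev, hg, (hβ S).ev,
    eventually_eventually_nhds.2 (ev_not_flat (hβ T) hT)] with y a1 a2 a3 a4 a5 hy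
  refine (ev_eq_of_dense (V := {w | β w T ≠ 0}) (hm_ev_cont a2)
    (hm_ev_cont ((a3 hy).mul (a4.pow m))) ?_ a1).self_of_nhds
  exact a5.mono fun w hw => mem_closure_iff_frequently.2 (frequently_ne hw)

end Crest.Agent.X261.Bog
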