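import Crest.Agent.X261.Bog.Cov
import Crest.Agent.X261.E0.Low
import Crest.Agent.X261.Top.Defs

/-!
Row 261, BOG (helper63): links.

* `noBog_of_E0` : `E0.NoBog A → Bog.NoBog A`
* `NoBog.wdg`   : the conclusion of `Top.JetStmt` contradicts `NoBog`
-/

set_option autoImplicit false
set_option linter.unusedSectionVars false

open Set Filter Topology
open scoped Matrix

noncomputable section

namespace Crest.Agent.X261.Bog

open Crest.Agent.R275.Geo Crest.Agent.R275.Core144 Crest.Agent.R273.Fock_243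
open Crest.Agent.R275.OmT75 (dl)

variable {n : ℕ} {M : Type} [TopologicalSpace M] {A : Atl n M} {p m : ℕ}

theorem lbNo_of_E0 [CompactSpace M] [T2Space M] (h : E0.NoBog A) : LBNo A :=
  fun B hB hf hP p hp L e he h0 _ hm s hs _ _ hx hli =>
    h B hB hf hP p hp L e he h0 (E0.low_of_rank hm hp s hs hx hli)

/-- the line bundle free form from the form of `E0` -/
theorem noBog_of_E0 [CompactSpace M] [T2Space M] [ConnectedSpace M] (h : E0.NoBog A) : NoBog A :=
  noBog_of_lbNo (lbNo_of_E0 h)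

theorem li_of_wdg {v : Fin p → Fin n → ℂ} (h : Top.wdg v ≠ 0) : LinearIndependent ℂ v := by
  obtain ⟨S, hS⟩ := Function.ne_iff.1 h
  by_cases hc : S.card = p
  · refine li_of_minor (fun l => S.orderEmbOfFin hc l) ?_
    simpa only [Top.wdg, dif_pos hc, Pi.zero_apply] using hS
  · exact absurd (dif_neg hc) hS

theorem tOm_top {L : LB A} {e : A.ι → M → FI n → ℂ} (he : Top.TOm L p e) : E0.TOm L p e :=
  ⟨he.hol, he.off, he.deg, he.tr⟩

theorem Sat.tOm_top {F : LF A p} (S : Sat F) : Top.TOm S.L p S.e :=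
  ⟨S.tOm'.hol, S.tOm'.off, S.tOm'.deg, S.tOm'.tr⟩

/-- the conclusion of `Top.JetStmt` is impossible -/
theorem NoBog.wdg [PreconnectedSpace M] (h : NoBog A) (hp : 1 ≤ p) {L : LB A}
    {e : A.ι → M → FI n → ℂ} (he : Top.TOm L p e) (h0 : ∃ i x, e i x ≠ 0)
    {s : Fin (p + 1) → A.ι → M → ℂ} (hs : ∀ k, IsHS (L ^ m) univ (s k)) {i : A.ι} {x : M}
    (hx : x ∈ (A.e i).source) : (Top.wdg fun (k : Fin p) (a : Fin n) =>
      s 0 i x * dl A i a (s k.succ i) x - s k.succ i x * dl A i a (s 0 i) x) = 0 := by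
  by_contra h1
  exact h.lb hp (tOm_top he) h0 hs hx (li_of_wdg h1)

/-- a coprime generator is nonzero somewhere -/
theorem ne_of_cop [Nonempty M] {e : A.ι → M → FI n → ℂ}
    (hc : ∀ i, ∀ x ∈ (A.e i).source, Crest.Agent.R281.Kd_22.Cop A (fun S y => e i y S) x) :
    ∃ i x, e i x ≠ 0 := by
  obtain ⟨x⟩ := ‹Nonempty M›
  obtain ⟨i, hi⟩ := A.cover x
  by_contra hcon
  push Not at hcon
  exact not_flat_of_cop (hc i x hi) (Eventually.of_forall fun y => hcon i y)

end Crest.Agent.X261.Bog
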