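import Crest.Agent.X261.Bog.Defs

/-!
Row 261, BOG (helper63), local algebra: coprime families of germs.

* `div_cop`     : a holomorphic vector parallel to a coprime vector is a holomorphic multiple of it
* `Cop.pow'`    : powers of a coprime family are coprime
* `cop_of_comb` : coprimality under invertible linear changes
* `exists_loc`  : local saturation
* `rt`          : the ratio of two parallel vectors as a function
-/

set_option autoImplicit false
set_option linter.unusedSectionVars false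

open Set Filter Topology
open scoped Matrix

noncomputable section

namespace Crest.Agent.X261.Bog

open Crest.Agent.R275.Geo Crest.Agent.R275.Core144 Crest.Agent.R273.Fock_243
open Crest.Agent.R273.Map_835 Crest.Agent.R273.PB_835 Crest.Agent.R275.GC293
open Crest.Agent.R281.Kd_22 Crest.Agent.R275.Loc2879

section Ring

variable {R : Type*} [CommRing R] [IsDomain R] [UniqueFactorizationMonoid R]

theorem dvd_of_cop {κ : Type*} [Finite κ] (e : κ → R) (hc : ∀ k, (∀ j, k ∣ e j) → IsUnit k)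
    {a b : R} (h : ∀ j, a ∣ b * e j) : a ∣ b := by
  classical
  let _ : GCDMonoid R := UniqueFactorizationMonoid.toGCDMonoid R
  have := Fintype.ofFinite κ
  have key : ∀ s : Finset κ, ∃ g : R, (∀ j ∈ s, g ∣ e j) ∧ a ∣ b * g := by
    intro s
    induction s using Finset.induction_on with
    | empty => exact ⟨0, by simp, by simp⟩
    | insert j s hj ih =>
      obtain ⟨g, h1, h2⟩ := ih
      refine ⟨gcd (e j) g, fun l hl => ?_, ?_⟩
      · rcases Finset.mem_insert.1 hl with rfl | hl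
        · exact gcd_dvd_left _ _
        · exact (gcd_dvd_right _ _).trans (h1 l hl)
      · exact (dvd_gcd (h j) h2).trans (gcd_mul_left' b (e j) g).dvd
  obtain ⟨g, h1, h2⟩ := key Finset.univ
  exact ((hc g fun j => h1 j (Finset.mem_univ j)).dvd_mul_right).1 h2

theorem cop_pow {κ : Type*} (e : κ → R) (hc : ∀ k, (∀ j, k ∣ e j) → IsUnit k) (m : ℕ) (k : R)
    (hk : ∀ j, k ∣ e j ^ m) : IsUnit k := by
  by_contra hu
  rcases eq_or_ne k 0 with rfl | h0
  · exact hu (hc 0 fun j => zero_dvd_iff.2 (eq_zero_of_pow_eq_zero (zero_dvd_iff.1 (hk j))))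
  · obtain ⟨q, hq, hqk⟩ := WfDvdMonoid.exists_irreducible_factor hu h0
    have hp : Prime q := UniqueFactorizationMonoid.irreducible_iff_prime.1 hq
    exact hq.not_isUnit (hc q fun j => hp.dvd_of_dvd_pow (hqk.trans (hk j)))

end Ring

variable {n : ℕ} {M : Type} [TopologicalSpace M] {A : Atl n M} {κ : Type*} {x : M}

theorem hm_sum {ι : Type*} (s : Finset ι) {f : ι → M → ℂ} (h : ∀ k ∈ s, Hm A (f k) x) :
    Hm A (fun y => ∑ k ∈ s, f k y) x := fun i hi => Finset.analyticAt_fun_sum s fun k hk => h k hk i hi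

theorem hm_prod {ι : Type*} (s : Finset ι) {f : ι → M → ℂ} (h : ∀ k ∈ s, Hm A (f k) x) :
    Hm A (fun y => ∏ k ∈ s, f k y) x :=
  fun i hi => Finset.analyticAt_fun_prod s fun k hk => h k hk i hi

theorem hm_div {f g : M → ℂ} (hf : Hm A f x) (hg : Hm A g x) (h0 : g x ≠ 0) :
    Hm A (fun y => f y / g y) x := by
  simpa only [div_eq_mul_inv] using hf.mul (hg.inv h0)

theorem cop_iff {i : A.ι} (hx : x ∈ (A.e i).source) {t : κ → M → ℂ} (ht : ∀ j, Hm A (t j) x) :
    Cop A t x ↔ ∀ k : OO (A.e i x), (∀ j, k ∣ gm _ (ht j i hx)) → IsUnit k := by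
  constructor
  · intro h k hk
    obtain ⟨f, hf, rfl⟩ := exists_gm k
    rw [isUnit_gm]
    refine h (fun y => f (A.e i y)) (hm_chart hx hf) fun j => ?_
    rw [dvM_iff hx]
    refine ((dv_iff hf (ht j i hx)).2 (hk j)).congr_left ?_
    filter_upwards [(A.e i).open_target.mem_nhds ((A.e i).map_source hx)] with z hz
    rw [(A.e i).right_inv hz]
  · intro h k hk hkt
    have h1 := h (gm _ (hk i hx)) fun j => (dv_iff (hk i hx) (ht j i hx)).1 ((dvM_iff hx).1 (hkt j))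
    rw [isUnit_gm, (A.e i).left_inv hx] at h1
    exact h1

theorem cop_pow' {t : κ → M → ℂ} (ht : ∀ j, Hm A (t j) x) (h : Cop A t x) (m : ℕ) :
    Cop A (fun j y => t j y ^ m) x := by
  obtain ⟨i, hi⟩ := A.cover x
  rw [cop_iff hi fun j => (ht j).pow m]
  intro k hk
  refine cop_pow _ ((cop_iff hi ht).1 h) m k fun j => ?_
  rw [gm_pow]
  exact hk j

theorem cop_not_flat {t : κ → M → ℂ} (h : Cop A t x) : ¬ ∀ j, ∀ᶠ y in 𝓝 x, t j y = 0 := by
  intro h0
  refine h (fun _ => 0) (Hm.const 0 x) (fun j => ⟨fun _ => 0, Hm.const 0 x, ?_⟩) rfl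
  filter_upwards [h0 j] with y hy
  rw [hy, zero_mul]

theorem dvM_of_cop [Finite κ] {t : κ → M → ℂ} (ht : ∀ j, Hm A (t j) x) (h : Cop A t x)
    {a b : M → ℂ} (ha : Hm A a x) (hb : Hm A b x) (hd : ∀ j, DvM A a (fun y => b y * t j y) x) :
    DvM A a b x := by
  obtain ⟨i, hi⟩ := A.cover x
  rw [dvM_iff hi, dv_iff (ha i hi) (hb i hi)]
  refine dvd_of_cop _ ((cop_iff hi ht).1 h) fun j => ?_
  rw [gm_mul]
  exact (dv_iff (ha i hi) ((hb.mul (ht j)) i hi)).1 ((dvM_iff hi).1 (hd j))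

/-- **division lemma** -/
theorem div_cop [Finite κ] {e h : M → κ → ℂ} (he : ∀ j, Hm A (fun y => e y j) x)
    (hh : ∀ j, Hm A (fun y => h y j) x) (hc : Cop A (fun j y => e y j) x)
    (hp : ∀ᶠ y in 𝓝 x, Par (h y) (e y)) :
    ∃ c : M → ℂ, Hm A c x ∧ ∀ᶠ y in 𝓝 x, h y = c y • e y := by
  obtain ⟨j₀, hj₀⟩ := not_forall.1 (cop_not_flat hc)
  obtain ⟨c, hcm, hce⟩ : DvM A (fun y => e y j₀) (fun y => h y j₀) x := by
    refine dvM_of_cop he hc (he j₀) (hh j₀) fun j => ⟨fun y => h y j, hh j, ?_⟩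
    filter_upwards [hp] with y hy
    rw [hy j₀ j, mul_comm]
  refine ⟨c, hcm, ?_⟩
  have h1 : ∀ j, ∀ᶠ y in 𝓝 x, h y j = c y * e y j := by
    intro j
    refine cancel (he j₀) (hh j) (hcm.mul (he j)) hj₀ ?_
    filter_upwards [hp, hce] with y h1 h2
    rw [mul_comm, h1 j j₀, h2]
    ring
  filter_upwards [eventually_all.2 h1] with y hy
  funext j
  exact hy j

theorem dvM_sum {ι : Type*} (s : Finset ι) {k : M → ℂ} {f : ι → M → ℂ}
    (h : ∀ l ∈ s, DvM A k (f l) x) : DvM A k (fun y => ∑ l ∈ s, f l y) x := by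
  classical
  choose! q hq e using h
  refine ⟨fun y => ∑ l ∈ s, q l y, hm_sum s hq, ?_⟩
  filter_upwards [(eventually_all_finset s).2 e] with y hy
  rw [Finset.mul_sum]
  exact Finset.sum_congr rfl hy

/-- coprimality under linear changes -/
theorem cop_of_comb {κ' : Type*} [Fintype κ'] {t : κ → M → ℂ} {t' : κ' → M → ℂ} (h : Cop A t x)
    (B : κ → κ' → M → ℂ) (hB : ∀ j l, Hm A (B j l) x)
    (e : ∀ j, ∀ᶠ y in 𝓝 x, t j y = ∑ l, B j l y * t' l y) : Cop A t' x := by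
  intro k hk hkt
  refine h k hk fun j => ?_
  refine (dvM_sum Finset.univ fun l _ => (hkt l).mul_right (hB j l)).congr_right ?_
  filter_upwards [e j] with y hy
  rw [hy]
  exact Finset.sum_congr rfl fun l _ => mul_comm _ _

theorem cop_congr {t t' : κ → M → ℂ} (h : Cop A t x) (e : ∀ j, t j =ᶠ[𝓝 x] t' j) : Cop A t' x :=
  fun k hk hkt => h k hk fun j => (hkt j).congr_right (e j).symm

theorem cop_change {A' : Atl n M} (h' : HolMap A A' id) {t : κ → M → ℂ} (h : Cop A t x) :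
    Cop A' t x := by
  intro k hk hkt
  refine h k (hm_change h' hk) fun j => ?_
  obtain ⟨q, hq, e⟩ := hkt j
  exact ⟨q, hm_change h' hq, e⟩

theorem exists_not_flat [Finite κ] {τ : M → κ → ℂ} (h : ¬ ∀ᶠ y in 𝓝 x, τ y = 0) :
    ∃ j, ¬ ∀ᶠ y in 𝓝 x, τ y j = 0 := by
  by_contra hcon
  push Not at hcon
  refine h ?_
  filter_upwards [eventually_all.2 hcon] with y hy
  exact funext hy

/-- **local saturation** -/
theorem exists_loc [Finite κ] {τ : M → κ → ℂ} (hτ : ∀ j, Hm A (fun y => τ y j) x)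
    (h0 : ¬ ∀ᶠ y in 𝓝 x, τ y = 0) : ∃ (d : M → ℂ) (e : M → κ → ℂ), ∀ᶠ y in 𝓝 x,
      Hm A d y ∧ (∀ j, Hm A (fun w => e w j) y) ∧ τ y = d y • e y ∧
        (¬ ∀ᶠ w in 𝓝 y, d w = 0) ∧ Cop A (fun j w => e w j) y := by
  classical
  have := Fintype.ofFinite κ
  obtain ⟨j₀, hj₀⟩ := exists_not_flat h0
  obtain ⟨d, hd, hd0, -, hdG, hk⟩ := exists_gcd_M (A := A) (x := x) (Finset.univ : Finset κ)
    (G := fun j y => τ y j) (g := fun y => τ y j₀) (hτ j₀) (fun j _ => hτ j) hj₀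
  choose m hm e using fun j => hdG j (Finset.mem_univ j)
  refine ⟨d, fun y j => m j y, ?_⟩
  filter_upwards [hd.ev, eventually_all.2 fun j => (hm j).ev,
    eventually_eventually_nhds.2 (eventually_all.2 e), ev_not_flat hd hd0, hk]
    with y h2 h3 h4 h5 h6
  refine ⟨h2, h3, funext h4.self_of_nhds, h5, fun k hk hkt hk0 => ?_⟩
  have h7 : ∀ j, DvM A (fun w => d w * k w) (fun w => τ w j) y := by
    intro j
    obtain ⟨q, hq, e⟩ := hkt j
    refine ⟨q, hq, ?_⟩
    filter_upwards [e, h4] with w h8 h9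
    rw [h9 j, h8, mul_assoc]
  obtain ⟨q, hq, e⟩ := h6 _ (h2.mul hk) (h7 j₀) fun j _ => h7 j
  have h8 : ∀ᶠ w in 𝓝 y, d w * (k w * q w) = d w * 1 := by
    filter_upwards [e] with w hw
    rw [mul_one, ← mul_assoc, ← hw]
  have h9 := (cancel h2 (hk.mul hq) (Hm.const 1 y) h5 h8).self_of_nhds
  rw [hk0, zero_mul] at h9
  exact zero_ne_one h9

/-! ### parallel vectors -/

theorem Par.symm {u v : κ → ℂ} (h : Par u v) : Par v u := fun S T => by
  rw [mul_comm, h T S, mul_comm]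

theorem par_smul (c : ℂ) (u : κ → ℂ) : Par (c • u) u := fun S T => by
  simp only [Pi.smul_apply, smul_eq_mul]; ring

theorem Par.eq_smul {u v : κ → ℂ} (h : Par u v) {T : κ} (hT : v T ≠ 0) : u = (u T / v T) • v := by
  funext S
  rw [Pi.smul_apply, smul_eq_mul, div_mul_eq_mul_div, eq_div_iff hT, h S T]

theorem Par.exists_smul {u v : κ → ℂ} (h : Par u v) (hv : v ≠ 0) : ∃ c : ℂ, u = c • v := by
  obtain ⟨T, hT⟩ := Function.ne_iff.1 hv
  exact ⟨_, h.eq_smul hT⟩

theorem Par.trans {u v w : κ → ℂ} (h : Par u v) (h' : Par v w) (hv : v ≠ 0) : Par u w := by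
  obtain ⟨c, rfl⟩ := h.exists_smul hv
  obtain ⟨c', rfl⟩ := h'.symm.exists_smul hv
  intro S T
  simp only [Pi.smul_apply, smul_eq_mul]; ring

theorem Par.mulVec {ι : Type*} [Fintype κ] {u v : κ → ℂ} (h : Par u v) (B : Matrix ι κ ℂ) :
    Par (B *ᵥ u) (B *ᵥ v) := by
  rcases eq_or_ne v 0 with rfl | hv
  · intro S T; simp
  · obtain ⟨c, rfl⟩ := h.exists_smul hv
    rw [Matrix.mulVec_smul]
    exact par_smul c _

/-- cancel a non flat factor in a parallelism -/
theorem par_cancel {u v : M → κ → ℂ} {d : M → ℂ} (hu : ∀ j, Hm A (fun y => u y j) x)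
    (hv : ∀ j, Hm A (fun y => v y j) x) [Finite κ] (hd : Hm A d x) (hd0 : ¬ ∀ᶠ y in 𝓝 x, d y = 0)
    (h : ∀ᶠ y in 𝓝 x, Par (u y) (d y • v y)) : ∀ᶠ y in 𝓝 x, Par (u y) (v y) := by
  have h1 : ∀ S T, ∀ᶠ y in 𝓝 x, u y S * v y T = u y T * v y S := by
    intro S T
    refine cancel hd ((hu S).mul (hv T)) ((hu T).mul (hv S)) hd0 ?_
    filter_upwards [h] with y hy
    have := hy S T
    simp only [Pi.smul_apply, smul_eq_mul] at this
    linear_combination this
  filter_upwards [eventually_all.2 fun S => eventually_all.2 (h1 S)] with y hy using hy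

/-! ### the ratio as a function -/

open Classical in
/-- the value at `x` of the holomorphic ratio `h / e` -/
def rt (A : Atl n M) (h e : M → κ → ℂ) (x : M) : ℂ :=
  if hx : ∃ c : M → ℂ, Hm A c x ∧ ∀ᶠ y in 𝓝 x, h y = c y • e y then hx.choose x else 0

theorem rt_ev [Finite κ] {h e : M → κ → ℂ} (he : ∀ j, Hm A (fun y => e y j) x)
    (h0 : ¬ ∀ᶠ y in 𝓝 x, e y = 0) {c : M → ℂ} (hc : Hm A c x)
    (hce : ∀ᶠ y in 𝓝 x, h y = c y • e y) : rt A h e =ᶠ[𝓝 x] c := by
  obtain ⟨j, hj⟩ := exists_not_flat h0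
  filter_upwards [hc.ev, (he j).ev, ev_not_flat (he j) hj, eventually_eventually_nhds.2 hce]
    with y h1 h2 h3 h4
  have hy : ∃ c : M → ℂ, Hm A c y ∧ ∀ᶠ w in 𝓝 y, h w = c w • e w := ⟨c, h1, h4⟩
  rw [rt, dif_pos hy]
  obtain ⟨h5, h6⟩ := hy.choose_spec
  refine (cancel h2 h5 h1 h3 ?_).self_of_nhds
  filter_upwards [h4, h6] with w a b
  have := congrFun (a.symm.trans b) j
  simp only [Pi.smul_apply, smul_eq_mul] at this
  linear_combination -this

/-! ### density -/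

theorem ev_eq_of_dense {f g : M → ℂ} {V : Set M} (hf : ∀ᶠ y in 𝓝 x, ContinuousAt f y)
    (hg : ∀ᶠ y in 𝓝 x, ContinuousAt g y) (hV : ∀ᶠ y in 𝓝 x, y ∈ closure V)
    (h : ∀ᶠ y in 𝓝 x, y ∈ V → f y = g y) : f =ᶠ[𝓝 x] g := by
  filter_upwards [hf, hg, hV, eventually_eventually_nhds.2 h] with y h1 h2 h3 h4
  have h5 : ∃ᶠ w in 𝓝 y, w ∈ V := mem_closure_iff_frequently.1 h3
  exact tendsto_nhds_unique_of_frequently_eq h1 h2 ((h5.and_eventually h4).mono fun w hw =>
    hw.2 hw.1)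

theorem hm_ev_cont {f : M → ℂ} (hf : Hm A f x) : ∀ᶠ y in 𝓝 x, ContinuousAt f y :=
  hf.ev.mono fun _ h => h.cont

theorem mem_closure_inter {U U' W W' : Set M} (hU' : IsOpen U') (hW : IsOpen W)
    (h : U ⊆ closure W) (h' : U' ⊆ closure W') (hx : x ∈ U ∩ U') : x ∈ closure (W ∩ W') := by
  have h1 : x ∈ closure (U' ∩ W) := hU'.inter_closure ⟨hx.2, h hx.1⟩
  have h2 : U' ∩ W ⊆ closure (W ∩ W') := fun y hy => hW.inter_closure ⟨hy.2, h' hy.1⟩
  exact closure_minimal h2 isClosed_closure h1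

end Crest.Agent.X261.Bog
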