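import Crest.Agent.X261.Bog.Use

/-!
Row 261, BOG (helper63): norms.  `NoBog.multi`: multivalued sections (finitely many sheets that
are permuted by the changes of charts).
-/

set_option autoImplicit false
set_option linter.unusedSectionVars false

open Set Filter Topology
open scoped Matrix

noncomputable section

namespace Crest.Agent.X261.Bog

open Crest.Agent.R275.Geo Crest.Agent.R275.Core144 Crest.Agent.R273.Fock_243
open Crest.Agent.R273.Map_835 Crest.Agent.R273.PB_835 Crest.Agent.R275.GC293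
open Crest.Agent.R281.Kd_22 Crest.Agent.R273.SteinC_794 Crest.Agent.R273.SteinD_794

/-- partial fractions -/
theorem resid {Q : Type} [Fintype Q] [DecidableEq Q] (a c : Q → ℂ) (q₀ : Q)
    (hac : ∀ q, a q = a q₀ → c q = c q₀)
    (h : ∀ t : ℂ, ∑ q, (∏ q' ∈ Finset.univ.erase q, (t - a q')) * c q = 0) : c q₀ = 0 := by
  classical
  have h1 : ∀ᶠ t in 𝓝[≠] (a q₀), ∀ q, t ≠ a q := by
    refine eventually_all.2 fun q => ?_
    by_cases hq : a q = a q₀
    · rw [hq]; exact self_mem_nhdsWithin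
    · exact mem_nhdsWithin_of_mem_nhds (isOpen_ne.mem_nhds (Ne.symm hq))
  have h2 : ∀ᶠ t in 𝓝[≠] (a q₀), ∑ q, c q * ((t - a q₀) / (t - a q)) = 0 := by
    filter_upwards [h1] with t ht
    have h3 : ∏ q, (t - a q) ≠ 0 := Finset.prod_ne_zero_iff.2 fun q _ => sub_ne_zero.2 (ht q)
    apply mul_left_cancel₀ h3
    rw [mul_zero, Finset.mul_sum, ← mul_zero (t - a q₀), ← h t, Finset.mul_sum]
    refine Finset.sum_congr rfl fun q _ => ?_
    rw [← Finset.mul_prod_erase _ _ (Finset.mem_univ q)]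
    have h4 := sub_ne_zero.2 (ht q)
    field_simp
  have h3 : Tendsto (fun t => ∑ q, c q * ((t - a q₀) / (t - a q))) (𝓝[≠] (a q₀))
      (𝓝 (∑ q, if a q = a q₀ then c q₀ else 0)) := by
    refine tendsto_finsetSum _ fun q _ => ?_
    by_cases hq : a q = a q₀
    · rw [if_pos hq, hac q hq, hq]
      refine tendsto_const_nhds.congr' ?_
      filter_upwards [self_mem_nhdsWithin] with t ht
      rw [div_self (sub_ne_zero.2 ht), mul_one]
    · rw [if_neg hq]
      have h4 : ContinuousAt (fun t => c q * ((t - a q₀) / (t - a q))) (a q₀) :=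
        continuousAt_const.mul ((continuousAt_id.sub continuousAt_const).div
          (continuousAt_id.sub continuousAt_const) (sub_ne_zero.2 (Ne.symm hq)))
      have h5 := h4.tendsto.mono_left (nhdsWithin_le_nhds (s := {a q₀}ᶜ))
      simpa using h5
  have h4 := tendsto_nhds_unique (h3.congr' h2) tendsto_const_nhds
  rw [Finset.sum_ite, Finset.sum_const_zero, add_zero, Finset.sum_const, nsmul_eq_mul] at h4
  refine (mul_eq_zero.1 h4).resolve_left (Nat.cast_ne_zero.2 ?_)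
  exact (Finset.card_pos.2 ⟨q₀, by simp⟩).ne'

/-- selection of independent covectors -/
theorem exists_li_sel {n p : ℕ} {J : Type*} (φ : J → Cn n →L[ℂ] ℂ) {ψ : Fin p → Cn n →L[ℂ] ℂ}
    (hψ : LinearIndependent ℂ ψ) (h : ∀ v, (∀ j, φ j v = 0) → ∀ k, ψ k v = 0) :
    ∃ s : Fin p → J, LinearIndependent ℂ fun k => φ (s k) := by
  let T : (Cn n →L[ℂ] ℂ) →ₗ[ℂ] (Cn n →ₗ[ℂ] ℂ) := ContinuousLinearMap.coeLM ℂ
  have hT : LinearMap.ker T = ⊥ := by
    rw [LinearMap.ker_eq_bot]
    exact ContinuousLinearMap.coe_injective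
  have h1 : ∀ k, T (ψ k) ∈ Submodule.span ℂ (range fun j => T (φ j)) := fun k =>
    FiniteDimensional.mem_span_of_iInf_ker_le_ker fun v hv => by
      rw [Submodule.mem_iInf] at hv
      exact h v hv k
  have h2 : p ≤ Module.finrank ℂ (Submodule.span ℂ (range fun j => T (φ j))) := by
    have h3 : LinearIndependent ℂ fun k =>
        (⟨T (ψ k), h1 k⟩ : Submodule.span ℂ (range fun j => T (φ j))) :=
      LinearIndependent.of_comp (Submodule.subtype _) (hψ.map' T hT)
    simpa using h3.fintype_card_le_finrank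
  obtain ⟨f, hf, -, hli⟩ := Submodule.exists_fun_fin_finrank_span_eq ℂ (range fun j => T (φ j))
  choose s hs using hf
  refine ⟨fun k => s (Fin.castLE h2 k), LinearIndependent.of_comp T ?_⟩
  have h4 := hli.comp _ (Fin.castLE_injective h2)
  have h5 : (⇑T ∘ fun k => φ (s (Fin.castLE h2 k))) = f ∘ Fin.castLE h2 := funext fun k => hs _
  rw [h5]
  exact h4

variable {n : ℕ} {M : Type} [TopologicalSpace M] {A : Atl n M} {x : M}

theorem not_flat_prod {ι : Type*} (s : Finset ι) {f : ι → M → ℂ} (hf : ∀ l ∈ s, Hm A (f l) x)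
    (h0 : ∀ l ∈ s, ¬ ∀ᶠ y in 𝓝 x, f l y = 0) : ¬ ∀ᶠ y in 𝓝 x, ∏ l ∈ s, f l y = 0 := by
  classical
  induction s using Finset.induction_on with
  | empty => intro h; simpa using h.self_of_nhds
  | insert k s hk ih =>
    simp only [Finset.prod_insert hk]
    intro h
    have h1 : ∀ l ∈ s, Hm A (f l) x := fun l hl => hf l (Finset.mem_insert_of_mem hl)
    rcases mul_flat (hf k (Finset.mem_insert_self k s)) (hm_prod s h1) h with h2 | h2
    · exact h0 k (Finset.mem_insert_self k s) h2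
    · exact ih h1 (fun l hl => h0 l (Finset.mem_insert_of_mem hl)) h2

/-- generic points for a finite family of germs -/
theorem frequently_gen {ι : Type*} [Finite ι] {f : ι → M → ℂ} (hf : ∀ l, Hm A (f l) x) :
    ∃ᶠ y in 𝓝 x, ∀ l, f l y = 0 → ∀ᶠ w in 𝓝 y, f l w = 0 := by
  classical
  have := Fintype.ofFinite ι
  let s : Finset ι := Finset.univ.filter fun l => ¬ ∀ᶠ y in 𝓝 x, f l y = 0
  have h1 := frequently_ne (not_flat_prod (A := A) s (fun l _ => hf l)
    fun l hl => (Finset.mem_filter.1 hl).2)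
  have h2 : ∀ᶠ y in 𝓝 x, ∀ l, l ∉ s → ∀ᶠ w in 𝓝 y, f l w = 0 := by
    refine eventually_all.2 fun l => ?_
    by_cases hl : l ∈ s
    · exact Eventually.of_forall fun _ h => absurd hl h
    · have h3 : ∀ᶠ y in 𝓝 x, f l y = 0 := by
        by_contra h4
        exact hl (Finset.mem_filter.2 ⟨Finset.mem_univ l, h4⟩)
      exact (eventually_eventually_nhds.2 h3).mono fun _ h _ => h
  refine (h1.and_eventually h2).mono fun y hy l hl => hy.2 l fun hls => ?_
  exact Finset.prod_ne_zero_iff.1 hy.1 l hls hl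

theorem df_prod {ι : Type*} [DecidableEq ι] (s : Finset ι) {f : ι → M → ℂ} {i : A.ι}
    (hf : ∀ l ∈ s, Hm A (f l) x) (hx : x ∈ (A.e i).source) :
    df A i (fun y => ∏ l ∈ s, f l y) x = ∑ l ∈ s, (∏ l' ∈ s.erase l, f l' x) • df A i (f l) x := by
  unfold df
  rw [fderiv_finsetProd fun l hl => (hf l hl i hx).differentiableAt, (A.e i).left_inv hx]

variable {p m : ℕ}

/-- **multivalued sections** -/
theorem NoBog.multi (h : NoBog A) (hp : 1 ≤ p) (F : LF A p) {W : F.κ → Set M} (hW : F.Dom W)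
    {Q : Type} [Finite Q] (g : Fin (p + 1) → Q → F.κ → M → ℂ) (hext : ∀ k q, F.Ext W m (g k q))
    (htr : ∀ a b, ∀ x ∈ W a ∩ W b, ∃ σ : Q ≃ Q, ∀ k q,
      F.TrAt m a b x (g k q a x) (g k (σ q) b x))
    {a : F.κ} (hx : x ∈ W a) (hnf : ∀ q, ¬ ∀ᶠ y in 𝓝 x, g 0 q a y = 0) (q₀ : Q)
    (h0 : g 0 q₀ a x ≠ 0) : ¬ LinearIndependent ℂ fun k : Fin p =>
      df A (F.ch a) (fun y => g k.succ q₀ a y / g 0 q₀ a y) x := by
  classical
  have := Fintype.ofFinite Q
  intro hli
  have hm : ∀ k q, ∀ y ∈ W a, Hm A (g k q a) y := fun k q y hy => (hext k q).hm hW hy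
  have hsrc : ∀ y ∈ W a, y ∈ (A.e (F.ch a)).source := fun y hy => F.sub a (hW.sub a hy)
  -- a generic point
  let D : Option (Fin p) × Q → M → ℂ := fun l y => match l.1 with
    | none => g 0 l.2 a y
    | some k => g k.succ l.2 a y * g 0 q₀ a y - g k.succ q₀ a y * g 0 l.2 a y
  have hD : ∀ l, Hm A (D l) x := by
    rintro ⟨_ | k, q⟩
    · exact hm 0 q x hx
    · exact ((hm _ q x hx).mul (hm 0 q₀ x hx)).sub ((hm _ q₀ x hx).mul (hm 0 q x hx))
  have hli' := li_ev (fun k : Fin p => cont_df (hm_div (hm k.succ q₀ x hx) (hm 0 q₀ x hx) h0)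
    (hsrc x hx)) hli
  have hWa : ∀ᶠ y in 𝓝 x, y ∈ W a := (hW.op a).mem_nhds hx
  obtain ⟨y, hgen, hy, hnf', hliy⟩ := ((frequently_gen hD).and_eventually (hWa.and
      ((eventually_all.2 fun q => ev_not_flat (hm 0 q x hx) (hnf q)).and hli'))).exists
  have hy0 : ∀ q, g 0 q a y ≠ 0 := fun q h1 => hnf' q (hgen (none, q) h1)
  have hys := hsrc y hy
  let z : Fin p → Q → M → ℂ := fun k q w => g k.succ q a w / g 0 q a w
  have hz : ∀ k q, Hm A (z k q) y := fun k q => hm_div (hm _ q y hy) (hm 0 q y hy) (hy0 q)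
  have hev0 : ∀ᶠ w in 𝓝 y, ∀ q, g 0 q a w ≠ 0 :=
    eventually_all.2 fun q => (hm 0 q y hy).ev_ne (hy0 q)
  have hzz : ∀ k q, z k q y = z k q₀ y → df A (F.ch a) (z k q) y = df A (F.ch a) (z k q₀) y := by
    intro k q h1
    refine df_congr hys ?_
    have h2 : D (some k, q) y = 0 := sub_eq_zero.2 ((div_eq_div_iff (hy0 q) (hy0 q₀)).1 h1)
    filter_upwards [hgen (some k, q) h2, hev0] with w h3 h4
    exact (div_eq_div_iff (h4 q) (h4 q₀)).2 (sub_eq_zero.1 h3)
  -- the norms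
  let N : ℂ × Fin p → F.κ → M → ℂ := fun j b w => ∏ q, (j.1 * g 0 q b w + (-1) * g j.2.succ q b w)
  let N₀ : F.κ → M → ℂ := fun b w => ∏ q, g 0 q b w
  have hsec : ∀ G : Q → F.κ → M → ℂ, (∀ q, F.Ext W m (G q)) →
      (∀ a b, ∀ x ∈ W a ∩ W b, ∃ σ : Q ≃ Q, ∀ q, F.TrAt m a b x (G q a x) (G (σ q) b x)) →
      F.Sec W (m * Fintype.card Q) fun b w => ∏ q, G q b w := by
    intro G h1 h2
    refine ⟨LF.Ext.prod Finset.univ fun q _ => h1 q, fun a b x hx c hc => ?_⟩
    obtain ⟨σ, hσ⟩ := h2 a b x hx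
    rw [Finset.prod_congr rfl fun q _ => hσ q c hc, Finset.prod_mul_distrib, Finset.prod_const,
      ← pow_mul, Equiv.prod_comp σ fun q => G q b x]
    rfl
  have hN : ∀ j, F.Sec W (m * Fintype.card Q) (N j) := fun j =>
    hsec (fun q b w => j.1 * g 0 q b w + (-1) * g j.2.succ q b w)
      (fun q => ((hext 0 q).smul _).add ((hext _ q).smul _)) fun a b x hx => by
        obtain ⟨σ, hσ⟩ := htr a b x hx
        refine ⟨σ, fun q c hc => ?_⟩
        rw [hσ 0 q c hc, hσ j.2.succ q c hc]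
        ring
  have hN₀ : F.Sec W (m * Fintype.card Q) N₀ := hsec (g 0) (hext 0) fun a b x hx => by
    obtain ⟨σ, hσ⟩ := htr a b x hx
    exact ⟨σ, hσ 0⟩
  have hr : ∀ j, df A (F.ch a) (fun w => N j a w / N₀ a w) y =
      ∑ q, (∏ q' ∈ Finset.univ.erase q, (j.1 - z j.2 q' y)) • (-df A (F.ch a) (z j.2 q) y) := by
    intro j
    have h1 : (fun w => N j a w / N₀ a w) =ᶠ[𝓝 y] fun w => ∏ q, (j.1 - z j.2 q w) := by
      filter_upwards [hev0] with w hw
      simp only [N, N₀, z]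
      rw [← Finset.prod_div_distrib]
      refine Finset.prod_congr rfl fun q _ => ?_
      have := hw q
      field_simp
      ring
    rw [df_congr hys h1, df_prod _ (fun q _ => (Hm.const _ y).sub (hz _ q)) hys]
    refine Finset.sum_congr rfl fun q _ => ?_
    rw [df_sub' (Hm.const _ y) (hz _ q) hys, df_const, zero_sub]
  obtain ⟨s, hs⟩ := exists_li_sel (fun j => df A (F.ch a) (fun w => N j a w / N₀ a w) y) hliy (by
    intro v hv k
    refine neg_eq_zero.1 (resid (fun q => z k q y) (fun q => -df A (F.ch a) (z k q) y v) q₀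
      (fun q hq => by rw [hzz k q hq]) fun t => ?_)
    have h1 := hv (t, k)
    rw [hr] at h1
    simpa only [sum_apply, smul_apply, neg_apply, smul_eq_mul] using h1)
  refine h p hp F W (m * Fintype.card Q) (Fin.cons N₀ fun k => N (s k)) hW (fun k => ?_) a y hy
    (Finset.prod_ne_zero_iff.2 fun q _ => hy0 q) hs
  refine Fin.cases hN₀ (fun k => hN _) k

end Crest.Agent.X261.Bog
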