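import Crest.Agent.X261.Bog.Sat

/-!
Row 261, BOG (helper63): sections of a line field are sections of the powers of the saturation.

* `LF.Ext.hm`, `LF.Ext.mul/add/smul/prod` : calculus of extendable coefficients
* `Sat.sec`  : `F.Sec W m g` gives a holomorphic section of `L ^ m`
* `lfOf`     : the line field of a twisted form; `NoBog.lb`
-/

set_option autoImplicit false
set_option linter.unusedSectionVars false

open Set Filter Topology
open scoped Matrix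

noncomputable section

namespace Crest.Agent.X261.Bog

open Crest.Agent.R275.Geo Crest.Agent.R275.Core144 Crest.Agent.R273.Fock_243
open Crest.Agent.R273.Map_835 Crest.Agent.R273.PB_835 Crest.Agent.R275.GC293
open Crest.Agent.R281.Kd_22 Crest.Agent.R273.SteinC_794 Crest.Agent.R273.SteinD_794

variable {n : ℕ} {M : Type} [TopologicalSpace M] {A : Atl n M} {p : ℕ} {F : LF A p}
  {W : F.κ → Set M} {m m' : ℕ} {g g' : F.κ → M → ℂ} {x : M}

namespace LF

theorem Dom.ev_closure (hW : F.Dom W) {a : F.κ} (hx : x ∈ F.U a) :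
    ∀ᶠ y in 𝓝 x, y ∈ closure (W a) := by
  filter_upwards [(F.op a).mem_nhds hx] with y hy using hW.dense a hy

theorem Dom.ev_closure₂ (hW : F.Dom W) {a b : F.κ} (hx : x ∈ F.U a ∩ F.U b) :
    ∀ᶠ y in 𝓝 x, y ∈ closure (W a ∩ W b) := by
  filter_upwards [((F.op a).inter (F.op b)).mem_nhds hx] with y hy
  exact mem_closure_inter (F.op b) (hW.op a) (hW.dense a) (hW.dense b) hy

/-- the coefficients are holomorphic on `W` -/
theorem Ext.hm (hg : F.Ext W m g) (hW : F.Dom W) {a : F.κ} (hx : x ∈ W a) : Hm A (g a) x := by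
  obtain ⟨T, hT⟩ := Function.ne_iff.1 (hW.ne a x hx)
  have hU := hW.sub a hx
  obtain ⟨H, h1, h2⟩ := hg a x hU T
  refine (hm_div h1 ((F.hm a x hU T).pow m) (pow_ne_zero m hT)).congr ?_
  filter_upwards [h2, (hW.op a).mem_nhds hx, (F.hm a x hU T).ev_ne hT] with y h3 h4 h5
  rw [h3 h4, mul_div_cancel_right₀ _ (pow_ne_zero m h5)]

theorem Ext.mul (hg : F.Ext W m g) (hg' : F.Ext W m' g') :
    F.Ext W (m + m') fun a y => g a y * g' a y := by
  intro a x hx S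
  obtain ⟨H, h1, h2⟩ := hg a x hx S
  obtain ⟨H', h1', h2'⟩ := hg' a x hx S
  refine ⟨_, h1.mul h1', ?_⟩
  filter_upwards [h2, h2'] with y h3 h4 hy
  rw [h3 hy, h4 hy]; ring

theorem Ext.add (hg : F.Ext W m g) (hg' : F.Ext W m g') :
    F.Ext W m fun a y => g a y + g' a y := by
  intro a x hx S
  obtain ⟨H, h1, h2⟩ := hg a x hx S
  obtain ⟨H', h1', h2'⟩ := hg' a x hx S
  refine ⟨_, h1.add h1', ?_⟩
  filter_upwards [h2, h2'] with y h3 h4 hy
  rw [h3 hy, h4 hy]; ring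

theorem Ext.smul (c : ℂ) (hg : F.Ext W m g) : F.Ext W m fun a y => c * g a y := by
  intro a x hx S
  obtain ⟨H, h1, h2⟩ := hg a x hx S
  refine ⟨_, (Hm.const c x).mul h1, ?_⟩
  filter_upwards [h2] with y h3 hy
  rw [h3 hy]; ring

theorem ext_one : F.Ext W 0 fun _ _ => 1 := fun _ x _ _ =>
  ⟨_, Hm.const 1 x, Eventually.of_forall fun _ _ => by ring⟩

theorem Ext.prod {ι : Type*} (s : Finset ι) {G : ι → F.κ → M → ℂ} (h : ∀ k ∈ s, F.Ext W m (G k)) :
    F.Ext W (m * s.card) fun a y => ∏ k ∈ s, G k a y := by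
  classical
  induction s using Finset.induction_on with
  | empty => simpa using ext_one
  | insert k s hk ih =>
    simp only [Finset.prod_insert hk, Finset.card_insert_of_notMem hk]
    rw [mul_add_one, add_comm]
    exact (h k (Finset.mem_insert_self k s)).mul (ih fun l hl => h l (Finset.mem_insert_of_mem hl))

theorem Ext.mono {W' : F.κ → Set M} (hg : F.Ext W m g) (h : ∀ a, W' a ⊆ W a) : F.Ext W' m g := by
  intro a x hx S
  obtain ⟨H, h1, h2⟩ := hg a x hx S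
  exact ⟨H, h1, h2.mono fun y h3 hy => h3 (h a hy)⟩

theorem Sec.mono {W' : F.κ → Set M} (hg : F.Sec W m g) (h : ∀ a, W' a ⊆ W a) : F.Sec W' m g :=
  ⟨hg.ext.mono h, fun a b x hx => hg.tr a b x ⟨h a hx.1, h b hx.2⟩⟩

/-- the largest domain -/
theorem dom_ne (F : LF A p) : F.Dom fun a => {x | x ∈ F.U a ∧ F.τ a x ≠ 0} where
  op a := by
    rw [isOpen_iff_mem_nhds]
    rintro x ⟨h1, h2⟩
    obtain ⟨T, hT⟩ := Function.ne_iff.1 h2
    filter_upwards [(F.op a).mem_nhds h1, (F.hm a x h1 T).ev_ne hT] with y h3 h4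
    exact ⟨h3, fun h5 => h4 (by rw [h5]; rfl)⟩
  sub a x hx := hx.1
  dense a x hx := by
    rw [mem_closure_iff_frequently]
    have h1 : ∃ᶠ y in 𝓝 x, F.τ a y ≠ 0 := fun h => F.nf a x hx (h.mono fun y hy => not_not.1 hy)
    exact (h1.and_eventually ((F.op a).mem_nhds hx)).mono fun y hy => ⟨hy.2, hy.1⟩
  ne a x hx := hx.2

/-- shrinking a domain -/
theorem Dom.inter (hW : F.Dom W) {V : F.κ → Set M} (hV : ∀ a, IsOpen (V a))
    (hd : ∀ a, F.U a ⊆ closure (V a)) : F.Dom fun a => W a ∩ V a where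
  op a := (hW.op a).inter (hV a)
  sub a _ hx := hW.sub a hx.1
  dense a _ hx := mem_closure_inter (F.op a) (hW.op a) (hW.dense a) (hd a) ⟨hx, hx⟩
  ne a x hx := hW.ne a x hx.1

end LF

namespace Sat

variable (S : Sat F)

theorem hm_e {i : S.A'.ι} (hx : x ∈ (S.A'.e i).source) (T : FI n) :
    Hm S.A' (fun y => S.e i y T) x := hm_of_holAt (S.hol i T) isOpen_univ hx (mem_univ x)

theorem tp_e {i j : S.A'.ι} (hx : x ∈ (S.A'.e i).source ∩ (S.A'.e j).source) :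
    tp S.A' i j x (S.e j x) = S.L.g i j x • S.e i x := by
  rw [S.tr i j x hx, smul_smul, mul_inv_cancel₀ (LB.ne_zero _ i j x), one_smul]

theorem τ_eq {i : S.A'.ι} {a : F.κ} (hx : x ∈ (S.A'.e i).source ∩ F.U a) :
    F.τ a x = S.c i a x • tq A S.A' (F.ch a) i x (S.e i x) := by
  rw [← tq_smul, ← S.c_eq i a x hx, tq_inv S.bih'.toHolMap S.bih.toHolMap (F.sub a hx.2) hx.1]

theorem ce_ne {i : S.A'.ι} {a : F.κ} (hx : x ∈ (S.A'.e i).source ∩ F.U a) (h0 : F.τ a x ≠ 0) :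
    S.c i a x ≠ 0 ∧ S.e i x ≠ 0 := by
  have h1 := tq_ne S.bih.toHolMap S.bih'.toHolMap hx.1 (F.sub a hx.2) h0
  rw [S.c_eq i a x hx] at h1
  exact ⟨left_ne_zero_of_smul h1, right_ne_zero_of_smul h1⟩

theorem c_tr {i j : S.A'.ι} {a : F.κ} (hi : x ∈ (S.A'.e i).source) (hj : x ∈ (S.A'.e j).source)
    (ha : x ∈ F.U a) (h0 : F.τ a x ≠ 0) : S.c i a x = S.L.g i j x * S.c j a x := by
  have h1 := S.c_eq i a x ⟨hi, ha⟩
  rw [← tq_tq (holMap_id S.A') S.bih.toHolMap hi hj (F.sub a ha), S.c_eq j a x ⟨hj, ha⟩, tq_smul,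
    ← tp_eq, S.tp_e ⟨hi, hj⟩, smul_smul] at h1
  rw [mul_comm]
  exact (smul_left_injective ℂ (S.ce_ne ⟨hi, ha⟩ h0).2 h1).symm

theorem c_tr' {i : S.A'.ι} {a b : F.κ} (hi : x ∈ (S.A'.e i).source) (ha : x ∈ F.U a)
    (hb : x ∈ F.U b) (h0 : F.τ a x ≠ 0) {l : ℂ}
    (hl : tp A (F.ch a) (F.ch b) x (F.τ b x) = l • F.τ a x) : S.c i b x = l * S.c i a x := by
  have h1 := S.c_eq i b x ⟨hi, hb⟩
  rw [← tq_tq S.bih.toHolMap (holMap_id A) hi (F.sub a ha) (F.sub b hb), ← tp_eq, hl, tq_smul,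
    S.c_eq i a x ⟨hi, ha⟩, smul_smul] at h1
  exact (smul_left_injective ℂ (S.ce_ne ⟨hi, ha⟩ h0).2 h1).symm

/-- local extension of `g a · (c i a) ^ m` -/
theorem exists_germ (hW : F.Dom W) (hg : F.Ext W m g) {i : S.A'.ι} {a : F.κ}
    (hx : x ∈ (S.A'.e i).source ∩ F.U a) :
    ∃ h : M → ℂ, Hm S.A' h x ∧ ∀ᶠ y in 𝓝 x, y ∈ W a → h y = g a y * S.c i a y ^ m := by
  have hb := S.bih.toHolMap
  have hb' := S.bih'.toHolMap
  set u : M → FI n → ℂ := fun y => tq A S.A' (F.ch a) i y (S.e i y) with hu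
  have hum : ∀ T, Hm A (fun y => u y T) x :=
    hm_tq hb' (F.sub a hx.2) hx.1 fun T => hm_change hb' (S.hm_e hx.1 T)
  have huc : Cop A (fun T y => u y T) x := cop_tq hb' hb (F.sub a hx.2) hx.1 (S.cop i x hx.1)
  choose H hH hHe using hg a x hx.2
  have hov : ∀ᶠ y in 𝓝 x, y ∈ (S.A'.e i).source ∩ F.U a :=
    ((S.A'.e i).open_source.inter (F.op a)).mem_nhds hx
  have hHu : ∀ᶠ y in 𝓝 x, y ∈ W a → ∀ T, H T y = g a y * S.c i a y ^ m * u y T ^ m := by
    filter_upwards [eventually_all.2 hHe, hov] with y h1 h2 hy T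
    rw [h1 T hy, S.τ_eq h2, Pi.smul_apply, smul_eq_mul, mul_pow, mul_assoc]
  obtain ⟨h, h1, h2⟩ := div_cop (A := A) (x := x) (e := fun y T => u y T ^ m) (h := fun y T => H T y)
    (fun T => (hum T).pow m) hH (cop_pow' hum huc m) (by
      refine eventually_all.2 fun T => eventually_all.2 fun T' => ?_
      refine ev_eq_of_dense (hm_ev_cont ((hH T).mul ((hum T').pow m)))
        (hm_ev_cont ((hH T').mul ((hum T).pow m))) (hW.ev_closure hx.2) ?_
      filter_upwards [hHu] with y h3 hy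
      rw [h3 hy T, h3 hy T']; ring)
  refine ⟨h, hm_change hb h1, ?_⟩
  filter_upwards [h2, hHu, hov] with y h3 h4 h5 hy
  obtain ⟨T, hT⟩ := Function.ne_iff.1 (hW.ne a y hy)
  rw [S.τ_eq h5] at hT
  have h6 : u y T ≠ 0 := right_ne_zero_of_mul hT
  have h7 := congrFun h3 T
  simp only [Pi.smul_apply, smul_eq_mul] at h7
  rw [h4 hy T] at h7
  exact (mul_right_cancel₀ (pow_ne_zero m h6) h7).symm

/-- `h` represents the section near `x` in the chart `i` -/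
def Rep (W : F.κ → Set M) (m : ℕ) (g : F.κ → M → ℂ) (i : S.A'.ι) (x : M) (h : M → ℂ) : Prop :=
  Hm S.A' h x ∧ ∃ a, x ∈ F.U a ∧ ∀ᶠ y in 𝓝 x, y ∈ W a → h y = g a y * S.c i a y ^ m

theorem Rep.ev {i : S.A'.ι} {h : M → ℂ} (hh : S.Rep W m g i x h) :
    ∀ᶠ y in 𝓝 x, S.Rep W m g i y h := by
  obtain ⟨h1, a, h2, h3⟩ := hh
  filter_upwards [h1.ev, (F.op a).mem_nhds h2, eventually_eventually_nhds.2 h3] with y a1 a2 a3
  exact ⟨a1, a, a2, a3⟩

theorem Rep.uniq (hW : F.Dom W) (hg : F.Sec W m g) {i : S.A'.ι} (hx : x ∈ (S.A'.e i).source)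
    {h h' : M → ℂ} (hh : S.Rep W m g i x h) (hh' : S.Rep W m g i x h') : h =ᶠ[𝓝 x] h' := by
  obtain ⟨h1, a, h2, h3⟩ := hh
  obtain ⟨h1', b, h2', h3'⟩ := hh'
  refine ev_eq_of_dense (hm_ev_cont h1) (hm_ev_cont h1') (hW.ev_closure₂ ⟨h2, h2'⟩) ?_
  filter_upwards [h3, h3', (S.A'.e i).open_source.mem_nhds hx] with y a1 a2 a3 hy
  have ha := hW.sub a hy.1
  have hb := hW.sub b hy.2
  obtain ⟨l, hl⟩ := (F.par a b y ⟨ha, hb⟩).symm.exists_smul (hW.ne a y hy.1)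
  rw [a1 hy.1, a2 hy.2, hg.tr a b y hy l hl, S.c_tr' a3 ha hb (hW.ne a y hy.1) hl]
  ring

/-- **sections of the line field are sections of the powers of the saturation** -/
theorem sec (hW : F.Dom W) (hg : F.Sec W m g) : ∃ s : S.A'.ι → M → ℂ, IsHS (S.L ^ m) univ s ∧
    ∀ i a, ∀ x ∈ (S.A'.e i).source ∩ W a, s i x = g a x * S.c i a x ^ m := by
  classical
  have hex : ∀ i, ∀ x ∈ (S.A'.e i).source, ∃ h, S.Rep W m g i x h := by
    intro i x hx
    obtain ⟨a, ha⟩ := F.cov x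
    obtain ⟨h, h1, h2⟩ := S.exists_germ hW hg.ext ⟨hx, ha⟩
    exact ⟨h, h1, a, ha, h2⟩
  let s : S.A'.ι → M → ℂ := fun i x =>
    if hx : x ∈ (S.A'.e i).source then (hex i x hx).choose x else 0
  have hs : ∀ i, ∀ x ∈ (S.A'.e i).source, ∀ h, S.Rep W m g i x h → s i =ᶠ[𝓝 x] h := by
    intro i x hx h hh
    filter_upwards [Rep.ev S hh, (S.A'.e i).open_source.mem_nhds hx] with y h1 h2
    simp only [s, dif_pos h2]
    exact (Rep.uniq S hW hg h2 (hex i y h2).choose_spec h1).self_of_nhds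
  refine ⟨s, ⟨fun i => holAt_of_hm fun x hx _ => ?_, fun i x hx => dif_neg hx,
    fun i j x hx _ => ?_⟩, fun i a x hx => ?_⟩
  · obtain ⟨h, hh⟩ := hex i x hx
    exact hh.1.congr (hs i x hx h hh).symm
  · obtain ⟨h, h1, a, h2, h3⟩ := hex j x hx.2
    have hG : Hm S.A' (S.L.g i j) x := hm_of_holAt (S.L.hol i j) (S.A'.e j).open_source hx.1 hx.2
    have h4 : S.Rep W m g i x fun y => S.L.g i j y ^ m * h y := by
      refine ⟨(hG.pow m).mul h1, a, h2, ?_⟩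
      filter_upwards [h3, (S.A'.e i).open_source.mem_nhds hx.1,
        (S.A'.e j).open_source.mem_nhds hx.2] with y a1 a2 a3 hy
      rw [a1 hy, S.c_tr a2 a3 (hW.sub a hy) (hW.ne a y hy)]
      ring
    rw [(hs i x hx.1 _ h4).self_of_nhds, (hs j x hx.2 h ⟨h1, a, h2, h3⟩).self_of_nhds,
      Crest.Agent.R273.HM_333.LB_pow_g]
  · obtain ⟨h, h1, h2⟩ := S.exists_germ hW hg.ext ⟨hx.1, hW.sub a hx.2⟩
    rw [(hs i x hx.1 h ⟨h1, a, hW.sub a hx.2, h2⟩).self_of_nhds, h2.self_of_nhds hx.2]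

end Sat

/-! ### the line field of a twisted form -/

/-- `e` is a holomorphic `p`-form with values in `L⁻¹` -/
structure TOm (L : LB A) (p : ℕ) (e : A.ι → M → FI n → ℂ) : Prop where
  hol : ∀ i S, HolAt A i univ (fun x => e i x S)
  deg : ∀ i, ∀ x ∈ (A.e i).source, ∀ S, e i x S ≠ 0 → S.card = p
  tr : ∀ i j, ∀ x ∈ (A.e i).source ∩ (A.e j).source,
    e i x = (L.g i j x)⁻¹ • tp A i j x (e j x)

theorem Sat.tOm (S : Sat F) : TOm S.L p S.e := ⟨S.hol, fun i x _ => S.deg i x, S.tr⟩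

variable {L : LB A} {e : A.ι → M → FI n → ℂ}

theorem TOm.hm (he : TOm L p e) {i : A.ι} (hx : x ∈ (A.e i).source) (T : FI n) :
    Hm A (fun y => e i y T) x := hm_of_holAt (he.hol i T) isOpen_univ hx (mem_univ x)

theorem TOm.tp_e (he : TOm L p e) {i j : A.ι} (hx : x ∈ (A.e i).source ∩ (A.e j).source) :
    tp A i j x (e j x) = L.g i j x • e i x := by
  rw [he.tr i j x hx, smul_smul, mul_inv_cancel₀ (LB.ne_zero _ i j x), one_smul]

/-- identity theorem for twisted forms -/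
theorem TOm.not_flat [PreconnectedSpace M] (he : TOm L p e)
    (h0 : ∃ i, ∃ x ∈ (A.e i).source, e i x ≠ 0) (i : A.ι) (hx : x ∈ (A.e i).source) :
    ¬ ∀ᶠ y in 𝓝 x, e i y = 0 := by
  let Z : Set M := {x | ∃ i, x ∈ (A.e i).source ∧ ∀ᶠ y in 𝓝 x, e i y = 0}
  have hZ : ∀ {i : A.ι} {x : M}, x ∈ (A.e i).source → x ∈ Z → ∀ᶠ y in 𝓝 x, e i y = 0 := by
    rintro i x hx ⟨j, hj, h⟩
    filter_upwards [h, (A.e i).open_source.mem_nhds hx, (A.e j).open_source.mem_nhds hj]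
      with y h1 h2 h3
    rw [he.tr i j y ⟨h2, h3⟩, h1, tp_eq, tq_zero, smul_zero]
  have hZo : IsOpen Z := by
    rw [isOpen_iff_mem_nhds]
    rintro x ⟨j, hj, h⟩
    filter_upwards [eventually_eventually_nhds.2 h, (A.e j).open_source.mem_nhds hj] with y h1 h2
    exact ⟨j, h2, h1⟩
  have hZc : IsClosed Z := by
    rw [← isOpen_compl_iff, isOpen_iff_mem_nhds]
    intro x hx
    obtain ⟨j, hj⟩ := A.cover x
    obtain ⟨T, hT⟩ := exists_not_flat (τ := e j) fun h => hx ⟨j, hj, h⟩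
    filter_upwards [ev_not_flat (he.hm hj T) hT, (A.e j).open_source.mem_nhds hj] with y h1 h2 hy
    exact h1 ((hZ h2 hy).mono fun w hw => by rw [hw]; rfl)
  intro hcon
  have h1 : Z = univ := IsClopen.eq_univ ⟨hZc, hZo⟩ ⟨x, i, hx, hcon⟩
  obtain ⟨j, y, hy, h2⟩ := h0
  exact h2 (hZ hy (h1 ▸ mem_univ y)).self_of_nhds

/-- the line field of a twisted form -/
def lfOf (he : TOm L p e) (h0 : ∀ i, ∀ x ∈ (A.e i).source, ¬ ∀ᶠ y in 𝓝 x, e i y = 0) :
    LF A p where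
  κ := A.ι
  ch := id
  U i := (A.e i).source
  op i := (A.e i).open_source
  sub _ := subset_rfl
  cov := A.cover
  τ := e
  hm _ _ hx T := he.hm hx T
  deg := he.deg
  nf := h0
  par i j x hx := by
    rw [id, id, he.tp_e hx]
    exact (par_smul _ _).symm

theorem sec_lfOf (he : TOm L p e) (h0 : ∀ i, ∀ x ∈ (A.e i).source, ¬ ∀ᶠ y in 𝓝 x, e i y = 0)
    {W : A.ι → Set M} (hW : (lfOf he h0).Dom W) {s : A.ι → M → ℂ} (hs : IsHS (L ^ m) univ s) :
    (lfOf he h0).Sec W m s := by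
  refine ⟨fun i x hx T => ⟨fun y => s i y * e i y T ^ m,
    (hm_of_isHS hs hx).mul ((he.hm hx T).pow m), Eventually.of_forall fun _ _ => rfl⟩,
    fun (i : A.ι) (j : A.ι) x hx c hc => ?_⟩
  have hx' : x ∈ (A.e i).source ∩ (A.e j).source := ⟨hW.sub i hx.1, hW.sub j hx.2⟩
  have h1 : L.g i j x • e i x = c • e i x := (he.tp_e hx').symm.trans hc
  rw [hs.tr i j x hx' (mem_univ x), Crest.Agent.R273.HM_333.LB_pow_g,
    smul_left_injective ℂ (hW.ne i x hx.1) h1]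

end Crest.Agent.X261.Bog
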